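import Mathlib

/-!
# Siegel–Walfisz core: definitions and interface

Everything here is about arithmetic functions `ℕ → ℂ`; the instantiation (sums over primary
elements of `ℤ[ω]` of given norm) is done elsewhere.
-/

namespace Vale.Agent.P006.SW

open Finset

/-- `a n * log n = ∑_{de=n} L d * a e` for all `n ≥ 1`. -/
def IsLog (a L : ℕ → ℂ) : Prop :=
  ∀ n : ℕ, n ≠ 0 →
    a n * ((Real.log n : ℝ) : ℂ) = ∑ p ∈ n.divisorsAntidiagonal, L p.1 * a p.2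

/-- The input of the Siegel–Walfisz core theorem. -/
structure SWData (a0 L0 : ℕ → ℝ) (a L a2 L2 : ℕ → ℂ) (C0 Q : ℝ) : Prop where
  a0_nonneg : ∀ n, 0 ≤ a0 n
  L0_nonneg : ∀ n, 0 ≤ L0 n
  a0_one : a0 1 = 1
  a_one : a 1 = 1
  a2_one : a2 1 = 1
  /-- `Λ`-identity for the majorant, for `a` and for `a2` -/
  log0 : IsLog (fun n => (a0 n : ℂ)) (fun n => (L0 n : ℂ))
  log1 : IsLog a L
  log2 : IsLog a2 L2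
  a_le : ∀ n, ‖a n‖ ≤ a0 n
  a2_le : ∀ n, ‖a2 n‖ ≤ a0 n
  L_le : ∀ n, ‖L n‖ ≤ L0 n
  L2_le : ∀ n, ‖L2 n‖ ≤ L0 n
  /-- total count of the majorant -/
  count : ∀ x : ℝ, 1 ≤ x → ∑ n ∈ Icc 1 ⌊x⌋₊, a0 n ≤ C0 * x
  /-- short interval count of the majorant -/
  short : ∀ x h : ℝ, 1 ≤ x → 0 ≤ h → h ≤ x →
    ∑ n ∈ Ioc ⌊x⌋₊ ⌊x + h⌋₊, a0 n ≤ C0 * (h + √x)
  /-- partial sums of `a` and `a2` -/
  psum : ∀ x : ℝ, 1 ≤ x → ‖∑ n ∈ Icc 1 ⌊x⌋₊, a n‖ ≤ Q * √x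
  psum2 : ∀ x : ℝ, 1 ≤ x → ‖∑ n ∈ Icc 1 ⌊x⌋₊, a2 n‖ ≤ Q * √x
  /-- the 3-4-1 inequality, termwise -/
  tfo : ∀ (n : ℕ) (t : ℝ), n ≠ 0 →
    0 ≤ 3 * L0 n + 4 * (L n * (n : ℂ) ^ (-((t : ℂ) * Complex.I))).re +
      (L2 n * (n : ℂ) ^ (-(((2 * t : ℝ) : ℂ) * Complex.I))).re
  C0_ge : 1 ≤ C0
  Q_ge : 3 ≤ Q

/-- The conclusion of the Siegel–Walfisz core theorem (`SW_core : SWCoreStatement`). -/
def SWCoreStatement : Prop :=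
  ∀ (J : ℕ) (C0 : ℝ), ∃ (K : ℝ) (B : ℕ), 0 < K ∧
    ∀ (a0 L0 : ℕ → ℝ) (a L a2 L2 : ℕ → ℂ) (Q : ℝ), SWData a0 L0 a L a2 L2 C0 Q →
      ∀ (x t : ℝ), 2 ≤ x →
        ‖∑ n ∈ Icc 1 ⌊x⌋₊, L n * (n : ℂ) ^ (-((t : ℂ) * Complex.I))‖ ≤
          K * x * (Real.log x) ^ (-(J : ℝ)) * (Real.log (Q * (|t| + 2))) ^ B

end Vale.Agent.P006.SW
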