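import Vale.Agent.P006.SW.Core

/-!
# Siegel–Walfisz core: final theorem `SW_core : SWCoreStatement`
-/

namespace Vale.Agent.P006.SW

open Finset LSeries Filter Topology MeasureTheory

variable {a0 L0 : ℕ → ℝ} {a L a2 L2 : ℕ → ℂ} {C0 Q : ℝ}

lemma norm_nit {n : ℕ} (hn : n ≠ 0) (t : ℝ) : ‖(n : ℂ) ^ (-((t : ℂ) * Complex.I))‖ = 1 := by
  have hn0 : (0 : ℝ) < n := by
    have := Nat.pos_of_ne_zero hn
    exact_mod_cast this
  have := Complex.norm_cpow_eq_rpow_re_of_pos hn0 (-((t : ℂ) * Complex.I))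
  rw [Complex.ofReal_natCast] at this
  rw [this]
  simp

lemma trivial_bound (D : SWData a0 L0 a L a2 L2 C0 Q) {y : ℝ} (hy : 1 ≤ y) (t : ℝ) :
    ‖∑ n ∈ Icc 1 ⌊y⌋₊, L n * (n : ℂ) ^ (-((t : ℂ) * Complex.I))‖ ≤ C0 * y * Real.log y := by
  calc _ ≤ ∑ n ∈ Icc 1 ⌊y⌋₊, ‖L n * (n : ℂ) ^ (-((t : ℂ) * Complex.I))‖ := norm_sum_le _ _
    _ ≤ ∑ n ∈ Icc 1 ⌊y⌋₊, a0 n * Real.log y := by
        refine Finset.sum_le_sum fun n hn => ?_
        have hn1 := (mem_Icc.1 hn).1
        have hn0 : n ≠ 0 := by omega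
        have hny : (n : ℝ) ≤ y := (Nat.le_floor_iff (by linarith)).1 (mem_Icc.1 hn).2
        have hn0' : (0 : ℝ) < n := by exact_mod_cast hn1
        rw [norm_mul, norm_nit hn0, mul_one]
        refine (D.L_le n).trans ((L0_le_of D hn0).trans ?_)
        have := D.a0_nonneg n
        have := Real.log_le_log hn0' hny
        gcongr
    _ = (∑ n ∈ Icc 1 ⌊y⌋₊, a0 n) * Real.log y := by rw [Finset.sum_mul]
    _ ≤ C0 * y * Real.log y := by
        have := D.count y hy
        have := Real.log_nonneg hy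
        gcongr

/-- **Siegel–Walfisz core theorem.** -/
theorem SW_core : SWCoreStatement := by
  intro J C0
  by_cases hC0 : 1 ≤ C0
  swap
  · exact ⟨1, 0, one_pos, fun a0 L0 a L a2 L2 Q D => absurd D.C0_ge hC0⟩
  obtain ⟨K, hK, hKb⟩ := sharp C0 J
  have hc := one_le_cj (J + 1)
  set m := 20 * (J + 1) with hm
  set K2 : ℝ := K * 2 ^ (2 * J + 1) * (2 + 2 * (2 * J + 1)) with hK2
  have hK20 : 0 < K2 := by positivity
  refine ⟨K2 + C0 * cj (J + 1) + C0 * 3 ^ (J + 1), m, by positivity, ?_⟩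
  intro a0 L0 a L a2 L2 Q D x t hx
  have hQ := D.Q_ge
  have hx0 : 0 < x := by linarith
  have hell := one_le_ell (t := t) hQ
  have hpe : (1 : ℝ) ≤ ell Q t ^ m := one_le_pow₀ hell
  have hlogx : 0 < Real.log x := Real.log_pos (by linarith)
  have hrw : (Real.log x) ^ (-(J : ℝ)) = ((Real.log x) ^ J)⁻¹ := by
    rw [Real.rpow_neg hlogx.le, Real.rpow_natCast]
  rw [hrw]
  change _ ≤ (K2 + C0 * cj (J + 1) + C0 * 3 ^ (J + 1)) * x * ((Real.log x) ^ J)⁻¹ * ell Q t ^ m
  rcases le_or_gt 9 x with hx9 | hx9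
  · -- main case
    have hlog1 : 1 ≤ Real.log x := one_le_log (by linarith)
    set y : ℝ := √x with hy
    have hy3 : 3 ≤ y := by
      rw [hy]
      apply Real.le_sqrt_of_sq_le
      linarith
    have hyx : y ≤ x := by
      rw [hy, Real.sqrt_le_left hx0.le]
      nlinarith
    have hyy : y * y = x := Real.mul_self_sqrt hx0.le
    have hy0 : 0 < y := by linarith
    have hlogy : Real.log y = Real.log x / 2 := by
      rw [hy, Real.log_sqrt hx0.le]
    have hlogy1 : 1 ≤ Real.log y := one_le_log hy3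
    -- split
    have hfl : ⌊y⌋₊ ≤ ⌊x⌋₊ := Nat.floor_le_floor hyx
    have hsplit : ∑ n ∈ Icc 1 ⌊x⌋₊, L n * (n : ℂ) ^ (-((t : ℂ) * Complex.I)) =
        ∑ n ∈ Icc 1 ⌊y⌋₊, L n * (n : ℂ) ^ (-((t : ℂ) * Complex.I)) +
        ∑ n ∈ Ioc ⌊y⌋₊ ⌊x⌋₊, L n * (n : ℂ) ^ (-((t : ℂ) * Complex.I)) := by
      rw [← Finset.sum_union]
      · congr 1
        ext k
        simp only [mem_union, mem_Icc, mem_Ioc]
        omega
      · rw [Finset.disjoint_left]
        intro k hk hk2
        have h1 := (mem_Icc.1 hk).2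
        have h2 := (mem_Ioc.1 hk2).1
        omega
    -- first part
    have hfirst : ‖∑ n ∈ Icc 1 ⌊y⌋₊, L n * (n : ℂ) ^ (-((t : ℂ) * Complex.I))‖ ≤
        C0 * cj (J + 1) * x * ((Real.log x) ^ J)⁻¹ := by
      refine (trivial_bound D (by linarith) t).trans ?_
      have h1 : (Real.log x) ^ (J + 1) ≤ cj (J + 1) * y := by
        refine (log_pow_le (J + 1) (by linarith : (1 : ℝ) ≤ x)).trans ?_
        have h2 : x ^ (1 / 8 : ℝ) ≤ y := by
          rw [hy, Real.sqrt_eq_rpow]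
          exact Real.rpow_le_rpow_of_exponent_le (by linarith) (by norm_num)
        gcongr
      rw [← div_eq_mul_inv, le_div_iff₀ (by positivity)]
      have h3 : Real.log y ≤ Real.log x := Real.log_le_log hy0 hyx
      calc C0 * y * Real.log y * (Real.log x) ^ J ≤ C0 * y * Real.log x * (Real.log x) ^ J := by
            gcongr
        _ = C0 * y * (Real.log x) ^ (J + 1) := by ring
        _ ≤ C0 * y * (cj (J + 1) * y) := by gcongr
        _ = C0 * cj (J + 1) * (y * y) := by ring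
        _ = _ := by rw [hyy]
    -- second part
    let f : ℝ → ℂ := fun u => ((((Real.log u) ^ (2 * J + 1))⁻¹ : ℝ) : ℂ)
    let f' : ℝ → ℂ := fun u =>
      ((-(((2 * J + 1 : ℕ) : ℝ) * (Real.log u) ^ (2 * J) * u⁻¹) / ((Real.log u) ^ (2 * J + 1)) ^ 2 : ℝ) : ℂ)
    have hder : ∀ u ∈ Set.Icc y x, HasDerivAt f (f' u) u := by
      intro u hu
      have hu0 : 0 < u := by linarith [hu.1]
      have hlu : Real.log u ≠ 0 := (Real.log_pos (by linarith [hu.1])).ne'
      have h1 : HasDerivAt (fun u : ℝ => (Real.log u) ^ (2 * J + 1))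
          (((2 * J + 1 : ℕ) : ℝ) * (Real.log u) ^ (2 * J) * u⁻¹) u := by
        have h0 := (Real.hasDerivAt_log hu0.ne').pow (2 * J + 1)
        rw [show 2 * J + 1 - 1 = 2 * J by omega] at h0
        exact h0
      exact (h1.inv (pow_ne_zero _ hlu)).ofReal_comp
    have hcontf' : ContinuousOn f' (Set.Icc y x) := by
      have hne : ∀ u ∈ Set.Icc y x, u ≠ 0 := fun u hu => by linarith [hu.1]
      have hlog : ContinuousOn (fun t : ℝ => Real.log t) (Set.Icc y x) :=
        Real.continuousOn_log.mono (fun t ht => hne t ht)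
      refine Complex.continuous_ofReal.comp_continuousOn ?_
      refine ContinuousOn.div ?_ ((hlog.pow _).pow _) ?_
      · exact ((continuousOn_const.mul (hlog.pow _)).mul (continuousOn_inv₀.mono hne)).neg
      · intro u hu
        have hlu : Real.log u ≠ 0 := (Real.log_pos (by linarith [hu.1])).ne'
        positivity
    have hderiv : Set.EqOn (deriv f) f' (Set.Icc y x) := fun u hu => (hder u hu).deriv
    have hint : IntegrableOn (deriv f) (Set.Icc y x) :=
      (hcontf'.integrableOn_Icc).congr_fun hderiv.symm measurableSet_Icc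
    have habel := sum_mul_eq_sub_sub_integral_mul (bt (2 * J + 1) L t) (f := f) (a := y) (b := x)
      hy0.le hyx (fun u hu => (hder u hu).differentiableAt) hint
    have hBB : ∀ u : ℝ, ∑ k ∈ Icc 0 ⌊u⌋₊, bt (2 * J + 1) L t k = BB (2 * J + 1) L t u := by
      intro u
      rw [BB, Finset.Icc_eq_cons_Ioc (Nat.zero_le _), Finset.sum_cons]
      have h0 : bt (2 * J + 1) L t 0 = 0 := by
        simp [bt, lpow]
      rw [h0, zero_add]
      refine Finset.sum_congr (by ext; simp [Finset.mem_Ioc, Finset.mem_Icc]; omega) fun _ _ => rfl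
    rw [hBB, hBB] at habel
    have hsum2 : ∑ n ∈ Ioc ⌊y⌋₊ ⌊x⌋₊, L n * (n : ℂ) ^ (-((t : ℂ) * Complex.I)) =
        ∑ n ∈ Ioc ⌊y⌋₊ ⌊x⌋₊, f n * bt (2 * J + 1) L t n := by
      refine Finset.sum_congr rfl fun n hn => ?_
      have hn1 : ⌊y⌋₊ < n := (mem_Ioc.1 hn).1
      have hyn : y < n := (Nat.floor_lt hy0.le).1 hn1
      have hln : Real.log n ≠ 0 := (Real.log_pos (by linarith)).ne'
      have hln' : (((Real.log n) ^ (2 * J + 1) : ℝ) : ℂ) ≠ 0 := by
        exact_mod_cast pow_ne_zero _ hln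
      simp only [f, bt, lpow]
      rw [Complex.ofReal_inv]
      field_simp
    have hBbound : ∀ u : ℝ, y ≤ u → u ≤ x → ‖BB (2 * J + 1) L t u‖ ≤
        K * u * (Real.log x) ^ (J + 1) * ell Q t ^ m := by
      intro u hu hux
      have hu0 : 0 < u := by linarith
      refine (hKb a0 L0 a L a2 L2 Q D u t (by linarith)).trans ?_
      have h1 : Real.log u ≤ Real.log x := Real.log_le_log hu0 hux
      have h2 : 0 ≤ Real.log u := Real.log_nonneg (by linarith)
      gcongr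
    set R : ℝ := Real.log x / 2 with hR
    have hR1 : 1 ≤ R := by rw [← hlogy]; exact hlogy1
    have hR0 : 0 < R := by linarith
    have hlogu : ∀ u : ℝ, y ≤ u → R ≤ Real.log u := by
      intro u hu
      rw [← hlogy]
      exact Real.log_le_log hy0 hu
    have hfb : ∀ u : ℝ, y ≤ u → ‖f u‖ ≤ (R ^ (2 * J + 1))⁻¹ := by
      intro u hu
      have h1 := hlogu u hu
      have hlu : 0 < Real.log u := by linarith
      simp only [f]
      rw [Complex.norm_real, Real.norm_of_nonneg (by positivity)]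
      gcongr
    have hf'b : ∀ u : ℝ, y ≤ u → ‖f' u‖ ≤ ((2 * J + 1 : ℕ) : ℝ) * (R ^ (2 * J + 2))⁻¹ * u⁻¹ := by
      intro u hu
      have h1 := hlogu u hu
      have hu0 : 0 < u := by linarith
      have hlu : 0 < Real.log u := by linarith
      simp only [f']
      rw [Complex.norm_real, norm_div, norm_neg, Real.norm_of_nonneg (by positivity),
        Real.norm_of_nonneg (by positivity)]
      have e1 : ((2 * J + 1 : ℕ) : ℝ) * (Real.log u) ^ (2 * J) * u⁻¹ /
          ((Real.log u) ^ (2 * J + 1)) ^ 2 =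
          ((2 * J + 1 : ℕ) : ℝ) * ((Real.log u) ^ (2 * J + 2))⁻¹ * u⁻¹ := by
        field_simp
        ring
      rw [e1]
      gcongr
    set W : ℝ := K * x * (Real.log x) ^ (J + 1) * ell Q t ^ m with hW
    have hW0 : 0 ≤ W := by positivity
    have ht1 : ‖f x * BB (2 * J + 1) L t x‖ ≤ (R ^ (2 * J + 1))⁻¹ * W := by
      rw [norm_mul]
      exact mul_le_mul (hfb x hyx) (hBbound x hyx le_rfl) (norm_nonneg _) (by positivity)
    have ht2 : ‖f y * BB (2 * J + 1) L t y‖ ≤ (R ^ (2 * J + 1))⁻¹ * W := by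
      rw [norm_mul]
      refine mul_le_mul (hfb y le_rfl) ((hBbound y le_rfl hyx).trans ?_) (norm_nonneg _)
        (by positivity)
      rw [hW]
      gcongr
    have ht3 : ‖∫ u in Set.Ioc y x, deriv f u * ∑ k ∈ Icc 0 ⌊u⌋₊, bt (2 * J + 1) L t k‖ ≤
        ((2 * J + 1 : ℕ) : ℝ) * (R ^ (2 * J + 2))⁻¹ * W := by
      have h1 : ‖∫ u in Set.Ioc y x, deriv f u * ∑ k ∈ Icc 0 ⌊u⌋₊, bt (2 * J + 1) L t k‖ ≤
          (((2 * J + 1 : ℕ) : ℝ) * (R ^ (2 * J + 2))⁻¹ *
            (K * (Real.log x) ^ (J + 1) * ell Q t ^ m)) * (volume.real (Set.Ioc y x)) := by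
        refine norm_setIntegral_le_of_norm_le_const (by simp) ?_
        intro u hu
        have hu0 : 0 < u := by linarith [hu.1]
        rw [hderiv ⟨hu.1.le, hu.2⟩, hBB, norm_mul]
        calc ‖f' u‖ * ‖BB (2 * J + 1) L t u‖ ≤
            (((2 * J + 1 : ℕ) : ℝ) * (R ^ (2 * J + 2))⁻¹ * u⁻¹) *
              (K * u * (Real.log x) ^ (J + 1) * ell Q t ^ m) :=
              mul_le_mul (hf'b u hu.1.le) (hBbound u hu.1.le hu.2) (norm_nonneg _) (by positivity)
          _ = _ := by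
              field_simp
      refine h1.trans ?_
      rw [Real.volume_real_Ioc_of_le hyx, hW]
      have : x - y ≤ x := by linarith
      calc _ ≤ (((2 * J + 1 : ℕ) : ℝ) * (R ^ (2 * J + 2))⁻¹ *
            (K * (Real.log x) ^ (J + 1) * ell Q t ^ m)) * x := by gcongr
        _ = _ := by ring
    have ht3' : ((2 * J + 1 : ℕ) : ℝ) * (R ^ (2 * J + 2))⁻¹ * W ≤
        (2 * (2 * (J : ℝ) + 1)) * (R ^ (2 * J + 1))⁻¹ * W := by
      have h1 : (R ^ (2 * J + 2))⁻¹ ≤ (R ^ (2 * J + 1))⁻¹ := by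
        apply inv_anti₀ (by positivity)
        exact pow_le_pow_right₀ hR1 (by omega)
      have h2 : ((2 * J + 1 : ℕ) : ℝ) ≤ 2 * (2 * (J : ℝ) + 1) := by
        push_cast
        have : (0 : ℝ) ≤ J := Nat.cast_nonneg J
        linarith
      gcongr
    have hRpow : (R ^ (2 * J + 1))⁻¹ * W = K * 2 ^ (2 * J + 1) * x * ((Real.log x) ^ J)⁻¹ *
        ell Q t ^ m := by
      rw [hR, hW, div_pow, show 2 * J + 1 = (J + 1) + J by ring, pow_add (Real.log x)]
      field_simp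
    have hsecond : ‖∑ n ∈ Ioc ⌊y⌋₊ ⌊x⌋₊, L n * (n : ℂ) ^ (-((t : ℂ) * Complex.I))‖ ≤
        K2 * x * ((Real.log x) ^ J)⁻¹ * ell Q t ^ m := by
      rw [hsum2, habel]
      calc _ ≤ ‖f x * BB (2 * J + 1) L t x‖ + ‖f y * BB (2 * J + 1) L t y‖ +
            ‖∫ u in Set.Ioc y x, deriv f u * ∑ k ∈ Icc 0 ⌊u⌋₊, bt (2 * J + 1) L t k‖ := by
            refine (norm_sub_le _ _).trans ?_
            gcongr
            exact norm_sub_le _ _
        _ ≤ (R ^ (2 * J + 1))⁻¹ * W + (R ^ (2 * J + 1))⁻¹ * W +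
            (2 * (2 * (J : ℝ) + 1)) * (R ^ (2 * J + 1))⁻¹ * W := by
            have := ht3.trans ht3'
            linarith
        _ = (2 + 2 * (2 * (J : ℝ) + 1)) * ((R ^ (2 * J + 1))⁻¹ * W) := by ring
        _ = _ := by rw [hRpow, hK2]; ring
    rw [hsplit]
    refine (norm_add_le _ _).trans ?_
    have hfirst' : C0 * cj (J + 1) * x * ((Real.log x) ^ J)⁻¹ ≤
        C0 * cj (J + 1) * x * ((Real.log x) ^ J)⁻¹ * ell Q t ^ m :=
      le_mul_of_one_le_right (by positivity) hpe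
    have hthird : 0 ≤ C0 * 3 ^ (J + 1) * x * ((Real.log x) ^ J)⁻¹ * ell Q t ^ m := by positivity
    calc _ ≤ C0 * cj (J + 1) * x * ((Real.log x) ^ J)⁻¹ * ell Q t ^ m +
          K2 * x * ((Real.log x) ^ J)⁻¹ * ell Q t ^ m :=
          add_le_add (hfirst.trans hfirst') hsecond
      _ ≤ _ := by
          have : (K2 + C0 * cj (J + 1) + C0 * 3 ^ (J + 1)) * x * ((Real.log x) ^ J)⁻¹ *
              ell Q t ^ m = (C0 * cj (J + 1) * x * ((Real.log x) ^ J)⁻¹ * ell Q t ^ m +
              K2 * x * ((Real.log x) ^ J)⁻¹ * ell Q t ^ m) +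
              C0 * 3 ^ (J + 1) * x * ((Real.log x) ^ J)⁻¹ * ell Q t ^ m := by ring
          rw [this]
          linarith
  · -- small x
    refine (trivial_bound D (by linarith) t).trans ?_
    have hlog3 : Real.log x ≤ 3 := by
      have h1 : Real.log x ≤ Real.log 9 := Real.log_le_log hx0 hx9.le
      have h2 : Real.log 9 ≤ 3 := by
        rw [Real.log_le_iff_le_exp (by norm_num)]
        have h3 : (2.7 : ℝ) ≤ Real.exp 1 := by have := Real.exp_one_gt_d9; linarith
        have h4 : Real.exp 3 = Real.exp 1 ^ 3 := by rw [← Real.exp_nat_mul]; norm_num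
        rw [h4]
        calc (9 : ℝ) ≤ 2.7 ^ 3 := by norm_num
          _ ≤ Real.exp 1 ^ 3 := by gcongr
      linarith
    have h5 : C0 * x * Real.log x ≤ C0 * 3 ^ (J + 1) * x * ((Real.log x) ^ J)⁻¹ := by
      rw [← div_eq_mul_inv, le_div_iff₀ (by positivity)]
      calc C0 * x * Real.log x * (Real.log x) ^ J = C0 * x * (Real.log x) ^ (J + 1) := by ring
        _ ≤ C0 * x * 3 ^ (J + 1) := by gcongr
        _ = _ := by ring
    have h6 : C0 * 3 ^ (J + 1) * x * ((Real.log x) ^ J)⁻¹ ≤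
        C0 * 3 ^ (J + 1) * x * ((Real.log x) ^ J)⁻¹ * ell Q t ^ m :=
      le_mul_of_one_le_right (by positivity) hpe
    refine (h5.trans h6).trans ?_
    have h7 : 0 ≤ (K2 + C0 * cj (J + 1)) * x * ((Real.log x) ^ J)⁻¹ * ell Q t ^ m := by positivity
    have h8 : (K2 + C0 * cj (J + 1) + C0 * 3 ^ (J + 1)) * x * ((Real.log x) ^ J)⁻¹ *
        ell Q t ^ m = (K2 + C0 * cj (J + 1)) * x * ((Real.log x) ^ J)⁻¹ * ell Q t ^ m +
        C0 * 3 ^ (J + 1) * x * ((Real.log x) ^ J)⁻¹ * ell Q t ^ m := by ring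
    rw [h8]
    linarith

end Vale.Agent.P006.SW
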