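import Vale.Agent.P006.SW.Defs

/-!
# Siegel–Walfisz core: convergence, identities, the logarithm `G`
-/

namespace Vale.Agent.P006.SW

open Finset LSeries Filter Topology

variable {a0 L0 : ℕ → ℝ} {a L a2 L2 : ℕ → ℂ} {C0 Q : ℝ}

/-- complexification of a real sequence -/
def cx (f : ℕ → ℝ) : ℕ → ℂ := fun n => (f n : ℂ)

lemma L0_le_of (D : SWData a0 L0 a L a2 L2 C0 Q) {n : ℕ} (hn : n ≠ 0) :
    L0 n ≤ a0 n * Real.log n := by
  have h := D.log0 n hn
  have h' : a0 n * Real.log n = ∑ p ∈ n.divisorsAntidiagonal, L0 p.1 * a0 p.2 := by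
    have : ((a0 n * Real.log n : ℝ) : ℂ) =
        ((∑ p ∈ n.divisorsAntidiagonal, L0 p.1 * a0 p.2 : ℝ) : ℂ) := by
      rw [Complex.ofReal_mul, Complex.ofReal_sum]
      simpa using h
    exact_mod_cast this
  rw [h']
  have hmem : (n, 1) ∈ n.divisorsAntidiagonal := by
    simp [Nat.mem_divisorsAntidiagonal, hn]
  calc L0 n = L0 (n, 1).1 * a0 (n, 1).2 := by simp [D.a0_one]
    _ ≤ _ := Finset.single_le_sum (f := fun p : ℕ × ℕ => L0 p.1 * a0 p.2)
        (fun p _ => mul_nonneg (D.L0_nonneg _) (D.a0_nonneg _)) hmem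

lemma LSS_mono {f g : ℕ → ℂ} {s : ℂ} (hg : LSeriesSummable g s)
    (h : ∀ n, n ≠ 0 → ‖f n‖ ≤ ‖g n‖) : LSeriesSummable f s := by
  refine Summable.of_norm_bounded hg.norm (fun n => ?_)
  rcases eq_or_ne n 0 with rfl | hn
  · simp
  · exact norm_term_le s (h n hn)

lemma summ_of_le_a0 (D : SWData a0 L0 a L a2 L2 C0 Q) {f : ℕ → ℂ}
    (hf : ∀ n, n ≠ 0 → ‖f n‖ ≤ a0 n)
    {s : ℂ} (hs : 1 < s.re) : LSeriesSummable f s := by
  refine LSeriesSummable_of_sum_norm_bigO (r := 1) ?_ zero_le_one hs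
  refine Asymptotics.IsBigO.of_bound C0 ?_
  filter_upwards [eventually_ge_atTop 1] with n hn
  have h1 : (1 : ℝ) ≤ (n : ℝ) := by exact_mod_cast hn
  have h2 := D.count n h1
  rw [Nat.floor_natCast] at h2
  rw [Real.rpow_one, Real.norm_of_nonneg (Finset.sum_nonneg fun _ _ => norm_nonneg _),
    Real.norm_of_nonneg (by positivity)]
  exact (Finset.sum_le_sum fun k hk => hf k (by have := (Finset.mem_Icc.1 hk).1; omega)).trans h2

lemma absc_of_le_a0 (D : SWData a0 L0 a L a2 L2 C0 Q) {f : ℕ → ℂ}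
    (hf : ∀ n, n ≠ 0 → ‖f n‖ ≤ a0 n) :
    abscissaOfAbsConv f ≤ 1 := by
  refine abscissaOfAbsConv_le_of_forall_lt_LSeriesSummable' (x := 1) ?_
  intro y hy
  refine summ_of_le_a0 D hf ?_
  simpa using (show (1 : ℝ) < y by exact_mod_cast hy)

lemma absc_of_le_logMul_a0 (D : SWData a0 L0 a L a2 L2 C0 Q) {f : ℕ → ℂ}
    (hf : ∀ n, n ≠ 0 → ‖f n‖ ≤ a0 n * Real.log n) :
    abscissaOfAbsConv f ≤ 1 := by
  have h1 : abscissaOfAbsConv (logMul (cx a0)) ≤ 1 := by
    rw [abscissaOfAbsConv_logMul]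
    exact absc_of_le_a0 D (fun n _ => by simp [cx, abs_of_nonneg (D.a0_nonneg n)])
  refine abscissaOfAbsConv_le_of_forall_lt_LSeriesSummable' (x := 1) ?_
  intro y hy
  have h2 : LSeriesSummable (logMul (cx a0)) (y : ℂ) := by
    apply LSeriesSummable_of_abscissaOfAbsConv_lt_re
    exact lt_of_le_of_lt h1 (by simpa using hy)
  refine LSS_mono h2 (fun n hn => (hf n hn).trans ?_)
  have hl : 0 ≤ Real.log n := Real.log_natCast_nonneg n
  simp only [logMul, cx, norm_mul, Complex.norm_real, Real.norm_eq_abs]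
  rw [← Complex.natCast_log, Complex.norm_real, Real.norm_eq_abs, abs_of_nonneg (D.a0_nonneg n),
    abs_of_nonneg hl, mul_comm]

lemma absc_a (D : SWData a0 L0 a L a2 L2 C0 Q) : abscissaOfAbsConv a ≤ 1 :=
  absc_of_le_a0 D fun n _ => D.a_le n
lemma absc_a2 (D : SWData a0 L0 a L a2 L2 C0 Q) : abscissaOfAbsConv a2 ≤ 1 :=
  absc_of_le_a0 D fun n _ => D.a2_le n
lemma absc_a0 (D : SWData a0 L0 a L a2 L2 C0 Q) : abscissaOfAbsConv (cx a0) ≤ 1 :=
  absc_of_le_a0 D fun n _ => by simp [cx, abs_of_nonneg (D.a0_nonneg n)]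
lemma absc_L (D : SWData a0 L0 a L a2 L2 C0 Q) : abscissaOfAbsConv L ≤ 1 :=
  absc_of_le_logMul_a0 D fun n hn => (D.L_le n).trans (L0_le_of D hn)
lemma absc_L2 (D : SWData a0 L0 a L a2 L2 C0 Q) : abscissaOfAbsConv L2 ≤ 1 :=
  absc_of_le_logMul_a0 D fun n hn => (D.L2_le n).trans (L0_le_of D hn)
lemma absc_L0 (D : SWData a0 L0 a L a2 L2 C0 Q) : abscissaOfAbsConv (cx L0) ≤ 1 :=
  absc_of_le_logMul_a0 D fun n hn => by
    simpa [cx, abs_of_nonneg (D.L0_nonneg n)] using L0_le_of D hn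

lemma lt_of_one {A : EReal} (h : A ≤ 1) {s : ℂ} (hs : 1 < s.re) : A < (s.re : EReal) :=
  lt_of_le_of_lt h (by exact_mod_cast hs)

/-- the sequence `L n / log n` -/
noncomputable def divLog (L : ℕ → ℂ) : ℕ → ℂ := fun n => L n / ((Real.log n : ℝ) : ℂ)

lemma log_pos_of_two {n : ℕ} (hn : 2 ≤ n) : 0 < Real.log n :=
  Real.log_pos (by exact_mod_cast hn)

lemma L_one {a L : ℕ → ℂ} (h : IsLog a L) (h1 : a 1 = 1) : L 1 = 0 := by
  have := h 1 one_ne_zero
  simpa [h1] using this.symm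

lemma logMul_divLog {L : ℕ → ℂ} (h1 : L 1 = 0) {n : ℕ} (hn : n ≠ 0) :
    logMul (divLog L) n = L n := by
  rcases eq_or_ne n 1 with rfl | hn1
  · simp [logMul, h1]
  · have : (0 : ℝ) < Real.log n := log_pos_of_two (by omega)
    have hne : ((Real.log n : ℝ) : ℂ) ≠ 0 := by exact_mod_cast this.ne'
    simp only [logMul, divLog]
    rw [← Complex.natCast_log]
    field_simp

lemma absc_divLog {L : ℕ → ℂ} (h1 : L 1 = 0) (h : abscissaOfAbsConv L ≤ 1) :
    abscissaOfAbsConv (divLog L) ≤ 1 := by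
  rw [← abscissaOfAbsConv_logMul]
  rwa [abscissaOfAbsConv_congr (g := L) (fun {n} hn => logMul_divLog h1 hn)]

/-- derivative of `F` in terms of `L` -/
lemma F_hasDerivAt {a L : ℕ → ℂ} (h : IsLog a L) (ha : abscissaOfAbsConv a ≤ 1)
    (hL : abscissaOfAbsConv L ≤ 1) {s : ℂ} (hs : 1 < s.re) :
    HasDerivAt (LSeries a) (-(LSeries L s * LSeries a s)) s := by
  have h1 := LSeries_hasDerivAt (lt_of_one ha hs)
  have h2 : LSeries (logMul a) s = LSeries L s * LSeries a s := by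
    rw [← LSeries_convolution (lt_of_one hL hs) (lt_of_one ha hs)]
    refine LSeries_congr (fun {n} hn => ?_) s
    rw [convolution_def]
    have := h n hn
    simp only [logMul]
    rw [← Complex.natCast_log, mul_comm, this]
  rwa [h2] at h1

lemma G_hasDerivAt {L : ℕ → ℂ} (h1 : L 1 = 0)
    (hL : abscissaOfAbsConv L ≤ 1) {s : ℂ} (hs : 1 < s.re) :
    HasDerivAt (LSeries (divLog L)) (-(LSeries L s)) s := by
  have h2 := LSeries_hasDerivAt (lt_of_one (absc_divLog h1 hL) hs)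
  rwa [LSeries_congr (fun {n} hn => logMul_divLog h1 hn) s] at h2

/-- `F = exp G` on `Re s > 1` -/
lemma F_eq_exp {a L : ℕ → ℂ} (h : IsLog a L) (ha1 : a 1 = 1) (ha : abscissaOfAbsConv a ≤ 1)
    (hL : abscissaOfAbsConv L ≤ 1) {s : ℂ} (hs : 1 < s.re) :
    LSeries a s = Complex.exp (LSeries (divLog L) s) := by
  have hL1 : L 1 = 0 := L_one h ha1
  set U : Set ℂ := {z | 1 < z.re} with hU
  have hUo : IsOpen U := isOpen_lt continuous_const Complex.continuous_re
  have hUc : Convex ℝ U := convex_halfSpace_re_gt 1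
  let H : ℂ → ℂ := fun z => LSeries a z * Complex.exp (-(LSeries (divLog L) z))
  have hd : ∀ z ∈ U, HasDerivAt H 0 z := by
    intro z hz
    have h1 := F_hasDerivAt h ha hL (s := z) hz
    have h2 := (G_hasDerivAt hL1 hL (s := z) hz).neg.cexp
    have h3 := h1.mul h2
    have h4 : (-(LSeries L z * LSeries a z)) * Complex.exp (-(LSeries (divLog L) z)) +
        LSeries a z * (Complex.exp (-(LSeries (divLog L) z)) * - -LSeries L z) = 0 := by ring
    simp only [Pi.neg_apply] at h3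
    rw [h4] at h3
    exact h3
  have hconst : ∀ z ∈ U, ∀ w ∈ U, H z = H w := by
    intro z hz w hw
    have hdiff : DifferentiableOn ℂ H U := fun z hz => (hd z hz).differentiableAt.differentiableWithinAt
    refine hUo.is_const_of_deriv_eq_zero hUc.isPreconnected hdiff ?_ hz hw
    intro z hz
    exact (hd z hz).deriv
  have hlim : Tendsto (fun x : ℝ => H x) atTop (𝓝 1) := by
    have h1 : Tendsto (fun x : ℝ => LSeries a x) atTop (𝓝 (a 1)) :=
      LSeries.tendsto_atTop (lt_of_le_of_lt ha (by exact_mod_cast EReal.coe_lt_top 1))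
    have h2 : Tendsto (fun x : ℝ => LSeries (divLog L) x) atTop (𝓝 (divLog L 1)) :=
      LSeries.tendsto_atTop (lt_of_le_of_lt (absc_divLog hL1 hL)
        (by exact_mod_cast EReal.coe_lt_top 1))
    have h3 : divLog L 1 = 0 := by simp [divLog]
    rw [h3] at h2
    have := h1.mul ((Complex.continuous_exp.tendsto _).comp h2.neg)
    simpa [H, ha1] using this
  have hs2 : H s = 1 := by
    refine tendsto_nhds_unique ?_ hlim
    refine tendsto_const_nhds.congr' ?_
    filter_upwards [eventually_gt_atTop 1] with x hx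
    exact hconst s hs x (by simpa [hU] using hx)
  have h5 : LSeries a s * Complex.exp (-(LSeries (divLog L) s)) = 1 := hs2
  rw [Complex.exp_neg] at h5
  have := mul_inv_eq_one₀ (Complex.exp_ne_zero (LSeries (divLog L) s)) |>.1 h5
  exact this

end Vale.Agent.P006.SW
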