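import Vale.Agent.P006.SW.Tent

/-!
# Siegel–Walfisz core: Cesàro sums of `L(n) (log n)^J n^{-it}`
-/

namespace Vale.Agent.P006.SW

open Finset LSeries Filter Topology MeasureTheory

variable {a0 L0 : ℕ → ℝ} {a L a2 L2 : ℕ → ℂ} {C0 Q : ℝ}

/-- `n ↦ (log n)^J L(n) n^{-it}` -/
noncomputable def bt (J : ℕ) (L : ℕ → ℂ) (t : ℝ) : ℕ → ℂ := fun n =>
  lpow J L n * (n : ℂ) ^ (-((t : ℂ) * Complex.I))

lemma ell_add_le {Q t y : ℝ} (hQ : 3 ≤ Q) :
    ell Q (t + y) ≤ ell Q t * (1 + Real.log (1 + |y|)) := by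
  have h1 := one_le_ell (t := t) hQ
  have hy : 0 ≤ Real.log (1 + |y|) := Real.log_nonneg (by linarith [abs_nonneg y])
  have h2 : Q * (|t + y| + 2) ≤ (Q * (|t| + 2)) * (1 + |y|) := by
    have := abs_add_le t y
    nlinarith [abs_nonneg t, abs_nonneg y, mul_nonneg (abs_nonneg t) (abs_nonneg y),
      mul_nonneg (mul_nonneg (by linarith : (0 : ℝ) ≤ Q) (abs_nonneg t)) (abs_nonneg y),
      mul_nonneg (by linarith : (0 : ℝ) ≤ Q) (abs_nonneg y)]
  have h3 : ell Q (t + y) ≤ ell Q t + Real.log (1 + |y|) := by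
    unfold ell
    rw [← Real.log_mul (by positivity) (by positivity)]
    exact Real.log_le_log (by positivity) h2
  nlinarith

lemma log_factor_le (m : ℕ) (y : ℝ) :
    (1 + Real.log (1 + |y|)) ^ m ≤ 3 * cj m * (1 + |y|) ^ (1 / 8 : ℝ) := by
  have hpos : 0 < 1 + |y| := by positivity
  have h1 : 1 + Real.log (1 + |y|) = Real.log (Real.exp 1 * (1 + |y|)) := by
    rw [Real.log_mul (Real.exp_pos 1).ne' hpos.ne', Real.log_exp]
  have he1 : (1 : ℝ) ≤ Real.exp 1 := by
    have := Real.add_one_le_exp (1 : ℝ); linarith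
  have h2 : 1 ≤ Real.exp 1 * (1 + |y|) := by nlinarith [abs_nonneg y]
  rw [h1]
  refine (log_pow_le m h2).trans ?_
  rw [Real.mul_rpow (Real.exp_pos 1).le hpos.le]
  have h3 : Real.exp 1 ^ (1 / 8 : ℝ) ≤ 3 := by
    calc Real.exp 1 ^ (1 / 8 : ℝ) ≤ Real.exp 1 ^ (1 : ℝ) :=
          Real.rpow_le_rpow_of_exponent_le he1 (by norm_num)
      _ ≤ 3 := by rw [Real.rpow_one]; have := Real.exp_one_lt_d9; linarith
  have := one_le_cj m
  calc cj m * (Real.exp 1 ^ (1 / 8 : ℝ) * (1 + |y|) ^ (1 / 8 : ℝ))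
      ≤ cj m * (3 * (1 + |y|) ^ (1 / 8 : ℝ)) := by gcongr
    _ = _ := by ring

/-- the absolute constant `∫ (1+|y|)^{-15/8}` -/
noncomputable def I0 : ℝ := ∫ y : ℝ, (1 + ‖y‖) ^ (-(15 / 8) : ℝ)

lemma I0_nonneg : 0 ≤ I0 := integral_nonneg fun y => by positivity

lemma integrable_I0 : Integrable (fun y : ℝ => (1 + ‖y‖) ^ (-(15 / 8) : ℝ)) :=
  integrable_one_add_norm (by simp; norm_num)

lemma cesaro (C0 : ℝ) (J : ℕ) : ∃ K : ℝ, 0 < K ∧
    ∀ (a0 L0 : ℕ → ℝ) (a L a2 L2 : ℕ → ℂ) (Q : ℝ), SWData a0 L0 a L a2 L2 C0 Q →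
      ∀ (X t : ℝ), 3 ≤ X →
        ‖∑ n ∈ Icc 1 ⌊X⌋₊, bt J L t n * (((1 - n / X : ℝ)) : ℂ)‖ ≤
          K * X * ell Q t ^ (10 * (J + 1)) := by
  obtain ⟨E, hE, hEb⟩ := E_upper C0 J
  refine ⟨18 * E * cj (10 * (J + 1)) * I0 + 1, ?_, ?_⟩
  · have := I0_nonneg
    have := one_le_cj (10 * (J + 1))
    positivity
  intro a0 L0 a L a2 L2 Q D X t hX
  have hQ := D.Q_ge
  set m := 10 * (J + 1) with hm
  have hX0 : 0 < X := by linarith
  have hlogX : 1 ≤ Real.log X := by
    rw [Real.le_log_iff_exp_le hX0]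
    have := Real.exp_one_lt_d9
    linarith
  set σ : ℝ := 1 + 1 / Real.log X with hσdef
  have hσ : 1 < σ := by
    have : 0 < 1 / Real.log X := by positivity
    linarith
  have hσ2 : σ ≤ 2 := by
    have : 1 / Real.log X ≤ 1 := by rw [div_le_one (by linarith)]; exact hlogX
    linarith
  have hXσ : X ^ σ ≤ 3 * X := by
    have : X ^ σ = X * X ^ (1 / Real.log X) := by
      rw [hσdef, Real.rpow_add hX0, Real.rpow_one]
    rw [this]
    have h2 : X ^ (1 / Real.log X) = Real.exp 1 := by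
      rw [Real.rpow_def_of_pos hX0]
      congr 1
      field_simp
    rw [h2]
    have := Real.exp_one_lt_d9
    nlinarith
  let M : ℝ → ℂ := fun y => mellin tent ((σ : ℂ) + y * Complex.I)
  let F : ℕ → ℝ → ℂ := fun n y =>
    term (lpow J L) ((σ : ℂ) + ((t + y : ℝ) : ℂ) * Complex.I) n *
      ((X : ℂ) ^ ((σ : ℂ) + y * Complex.I) * M y)
  have hMcont : Continuous M := measurable_mellin_tent hσ.le
  have hXcont : Continuous (fun y : ℝ => (X : ℂ) ^ ((σ : ℂ) + y * Complex.I)) := by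
    refine Continuous.const_cpow (by fun_prop) (Or.inl (by exact_mod_cast hX0.ne'))
  have hnormX : ∀ y : ℝ, ‖(X : ℂ) ^ ((σ : ℂ) + y * Complex.I)‖ = X ^ σ := by
    intro y
    rw [Complex.norm_cpow_eq_rpow_re_of_pos hX0]
    simp
  have hnormT : ∀ (n : ℕ) (y : ℝ), ‖term (lpow J L) ((σ : ℂ) + ((t + y : ℝ) : ℂ) * Complex.I) n‖ =
      ‖term (lpow J L) (σ : ℂ) n‖ := by
    intro n y
    rw [norm_term_eq, norm_term_eq]
    simp
  have hFn : ∀ n y, ‖F n y‖ = (‖term (lpow J L) (σ : ℂ) n‖ * X ^ σ) * ‖M y‖ := by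
    intro n y
    simp only [F]
    rw [norm_mul, norm_mul, hnormT, hnormX]
    ring
  have hFcont : ∀ n, Continuous (F n) := by
    intro n
    refine Continuous.mul ?_ (hXcont.mul hMcont)
    rcases eq_or_ne n 0 with rfl | hn
    · simp only [term_zero]; exact continuous_const
    · have : (fun y : ℝ => term (lpow J L) ((σ : ℂ) + ((t + y : ℝ) : ℂ) * Complex.I) n) =
          fun y : ℝ => lpow J L n / (n : ℂ) ^ ((σ : ℂ) + ((t + y : ℝ) : ℂ) * Complex.I) := by
        ext y; rw [term_of_ne_zero hn]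
      rw [this]
      refine Continuous.div continuous_const ?_ (fun y => ?_)
      · refine Continuous.const_cpow (by fun_prop) (Or.inl (by exact_mod_cast hn))
      · rw [Complex.cpow_ne_zero_iff]
        left
        exact_mod_cast hn
  have hMint : Integrable M := integrable_mellin_tent hσ.le
  have hFint : ∀ n, Integrable (F n) := by
    intro n
    refine (hMint.norm.const_mul (‖term (lpow J L) (σ : ℂ) n‖ * X ^ σ)).mono'
      (hFcont n).aestronglyMeasurable ?_
    exact Eventually.of_forall fun y => (hFn n y).le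
  have hsumσ : LSeriesSummable (lpow J L) (σ : ℂ) :=
    LSeriesSummable_of_abscissaOfAbsConv_lt_re
      (lt_of_one (absc_lpow J (absc_L D)) (by simpa using hσ))
  have hFsum : Summable fun n => ∫ y, ‖F n y‖ := by
    have : (fun n => ∫ y, ‖F n y‖) = fun n => ‖term (lpow J L) (σ : ℂ) n‖ * (X ^ σ * ∫ y, ‖M y‖) := by
      ext n
      simp only [hFn]
      rw [integral_const_mul]
      ring
    rw [this]
    exact (hsumσ.norm).mul_right _
  have hmain := hasSum_integral_of_summable_integral_norm hFint hFsum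
  -- identify the integrals
  have hone : ∀ n : ℕ, ∫ y, F n y = (if n = 0 then 0 else
      (2 * Real.pi : ℝ) * (bt J L t n * ((max (1 - n / X) 0 : ℝ) : ℂ))) := by
    intro n
    rcases eq_or_ne n 0 with rfl | hn
    · simp [F]
    · rw [if_neg hn]
      have hn0 : (0 : ℝ) < n := by
        have := Nat.pos_of_ne_zero hn
        exact_mod_cast this
      have hinv := tent_inversion hσ.le (x := (n : ℝ) / X) (by positivity)
      rw [hinv]
      have hpi : (Real.pi : ℂ) ≠ 0 := by exact_mod_cast Real.pi_ne_zero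
      have e1 : ∀ y : ℝ, F n y = bt J L t n *
          (((((n : ℝ) / X : ℝ)) : ℂ) ^ (-((σ : ℂ) + y * Complex.I)) *
            mellin tent ((σ : ℂ) + y * Complex.I)) := by
        intro y
        simp only [F, M, bt]
        rw [term_of_ne_zero hn]
        have hn' : (n : ℂ) ≠ 0 := by exact_mod_cast hn
        have hX' : (X : ℂ) ≠ 0 := by exact_mod_cast hX0.ne'
        set w : ℂ := (σ : ℂ) + y * Complex.I with hw
        have e2 : ((((n : ℝ) / X : ℝ)) : ℂ) ^ (-w) = (n : ℂ) ^ (-w) * (X : ℂ) ^ w := by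
          have h3 := Complex.mul_cpow_ofReal_nonneg (a := (n : ℝ) / X) (b := X)
            (by positivity) hX0.le (-w)
          have h4 : ((((n : ℝ) / X : ℝ)) : ℂ) * (X : ℂ) = (n : ℂ) := by
            push_cast
            field_simp
          rw [h4] at h3
          rw [h3, Complex.cpow_neg (X : ℂ), mul_assoc, inv_mul_cancel₀, mul_one]
          rw [Complex.cpow_ne_zero_iff]
          exact Or.inl hX'
        rw [e2]
        have e3 : (σ : ℂ) + ((t + y : ℝ) : ℂ) * Complex.I = (t : ℂ) * Complex.I + w := by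
          rw [hw]; push_cast; ring
        rw [e3, Complex.cpow_add _ _ hn', Complex.cpow_neg, Complex.cpow_neg]
        field_simp
      rw [integral_congr_ae (Eventually.of_forall e1), integral_const_mul, Complex.real_smul]
      generalize (∫ y : ℝ, (((((n : ℝ) / X : ℝ)) : ℂ) ^ (-((σ : ℂ) + y * Complex.I)) *
            mellin tent ((σ : ℂ) + y * Complex.I))) = W
      push_cast
      field_simp
  have hfin : HasSum (fun n : ℕ => ∫ y, F n y)
      ((2 * Real.pi : ℝ) * ∑ n ∈ Icc 1 ⌊X⌋₊, bt J L t n * (((1 - n / X : ℝ)) : ℂ)) := by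
    have h1 : ∀ n ∉ Icc 1 ⌊X⌋₊, ∫ y, F n y = 0 := by
      intro n hn
      rw [hone]
      rcases eq_or_ne n 0 with rfl | hn0
      · simp
      · rw [if_neg hn0]
        have h2 : ⌊X⌋₊ < n := by
          rw [Finset.mem_Icc] at hn
          omega
        have h3 : X < n := (Nat.floor_lt hX0.le).1 h2
        have h4 : max (1 - (n : ℝ) / X) 0 = 0 := by
          apply max_eq_right
          have : 1 ≤ (n : ℝ) / X := by rw [le_div_iff₀ hX0]; linarith
          linarith
        rw [h4]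
        simp
    have h5 : HasSum (fun n : ℕ => ∫ y, F n y) (∑ n ∈ Icc 1 ⌊X⌋₊, ∫ y, F n y) :=
      hasSum_sum_of_ne_finset_zero h1
    have h6 : ∑ n ∈ Icc 1 ⌊X⌋₊, ∫ y, F n y =
        ((2 * Real.pi : ℝ) : ℂ) * ∑ n ∈ Icc 1 ⌊X⌋₊, bt J L t n * (((1 - n / X : ℝ)) : ℂ) := by
      rw [Finset.mul_sum]
      refine Finset.sum_congr rfl fun n hn => ?_
      have hn1 := (Finset.mem_Icc.1 hn).1
      have hn2 : (n : ℝ) ≤ X := (Nat.le_floor_iff hX0.le).1 (Finset.mem_Icc.1 hn).2
      rw [hone, if_neg (by omega), max_eq_left]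
      have : (n : ℝ) / X ≤ 1 := by rw [div_le_one hX0]; exact hn2
      linarith
    rw [h6] at h5
    exact h5
  have heq := hfin.unique hmain
  have htsum : ∀ y : ℝ, ∑' n, F n y = LSeries (lpow J L) ((σ : ℂ) + ((t + y : ℝ) : ℂ) * Complex.I) *
      ((X : ℂ) ^ ((σ : ℂ) + y * Complex.I) * M y) := by
    intro y
    simp only [F]
    rw [tsum_mul_right]
    rfl
  have hbound : ‖∫ y, ∑' n, F n y‖ ≤ 18 * E * cj m * I0 * X * ell Q t ^ m := by
    have hc := one_le_cj m
    have hell := one_le_ell (t := t) hQ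
    have h1 : ‖∫ y, ∑' n, F n y‖ ≤ ∫ y : ℝ, (18 * E * cj m * X * ell Q t ^ m) *
        (1 + ‖y‖) ^ (-(15 / 8) : ℝ) := by
      refine norm_integral_le_of_norm_le (integrable_I0.const_mul _) ?_
      refine Eventually.of_forall fun y => ?_
      rw [htsum, norm_mul, norm_mul, hnormX]
      have hpos : 0 < 1 + |y| := by positivity
      have h2 := hEb a0 L0 a L a2 L2 Q D ((σ : ℂ) + ((t + y : ℝ) : ℂ) * Complex.I)
        (by simpa using hσ) (by simpa using hσ2) J le_rfl
      have him : ((σ : ℂ) + ((t + y : ℝ) : ℂ) * Complex.I).im = t + y := by simp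
      rw [him] at h2
      have h3 : ell Q (t + y) ^ m ≤ ell Q t ^ m * (3 * cj m * (1 + |y|) ^ (1 / 8 : ℝ)) := by
        have h4 := ell_add_le (t := t) (y := y) hQ
        have h5 := one_le_ell (t := t + y) hQ
        calc ell Q (t + y) ^ m ≤ (ell Q t * (1 + Real.log (1 + |y|))) ^ m := by gcongr
          _ = ell Q t ^ m * (1 + Real.log (1 + |y|)) ^ m := mul_pow _ _ _
          _ ≤ _ := by
              have := log_factor_le m y
              gcongr
      have h4 : ‖M y‖ ≤ 2 * (1 + |y|) ^ (-2 : ℝ) := norm_mellin_tent_le hσ.le y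
      calc ‖LSeries (lpow J L) ((σ : ℂ) + ((t + y : ℝ) : ℂ) * Complex.I)‖ * (X ^ σ * ‖M y‖)
          ≤ (E * (ell Q t ^ m * (3 * cj m * (1 + |y|) ^ (1 / 8 : ℝ)))) *
            ((3 * X) * (2 * (1 + |y|) ^ (-2 : ℝ))) := by
            have h6 : ‖LSeries (lpow J L) ((σ : ℂ) + ((t + y : ℝ) : ℂ) * Complex.I)‖ ≤
                E * (ell Q t ^ m * (3 * cj m * (1 + |y|) ^ (1 / 8 : ℝ))) := by
              refine h2.trans ?_
              have : 0 ≤ E := by linarith
              gcongr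
            gcongr
        _ = (18 * E * cj m * X * ell Q t ^ m) *
            ((1 + |y|) ^ (1 / 8 : ℝ) * (1 + |y|) ^ (-2 : ℝ)) := by ring
        _ = _ := by
            rw [← Real.rpow_add hpos, Real.norm_eq_abs]
            norm_num
    refine h1.trans (le_of_eq ?_)
    rw [integral_const_mul]
    unfold I0
    ring
  have hfinal : (2 * Real.pi) * ‖∑ n ∈ Icc 1 ⌊X⌋₊, bt J L t n * (((1 - n / X : ℝ)) : ℂ)‖ ≤
      18 * E * cj m * I0 * X * ell Q t ^ m := by
    rw [← heq, norm_mul, Complex.norm_real, Real.norm_of_nonneg (by positivity)] at hbound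
    exact hbound
  have hpi := Real.pi_gt_three
  have hS0 := norm_nonneg (∑ n ∈ Icc 1 ⌊X⌋₊, bt J L t n * (((1 - n / X : ℝ)) : ℂ))
  have hell := one_le_ell (t := t) hQ
  have hpow : 0 ≤ X * ell Q t ^ m := by positivity
  nlinarith

end Vale.Agent.P006.SW
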