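import Vale.Agent.P006.SW.Cesaro

/-!
# Siegel–Walfisz core: the theorem
-/

namespace Vale.Agent.P006.SW

open Finset LSeries Filter Topology MeasureTheory

variable {a0 L0 : ℕ → ℝ} {a L a2 L2 : ℕ → ℂ} {C0 Q : ℝ}

lemma norm_bt_le (D : SWData a0 L0 a L a2 L2 C0 Q) (J : ℕ) (t : ℝ) {n : ℕ} (hn : n ≠ 0) :
    ‖bt J L t n‖ ≤ (Real.log n) ^ (J + 1) * a0 n := by
  have hl : 0 ≤ Real.log n := Real.log_natCast_nonneg n
  have hn0 : (0 : ℝ) < n := by
    have := Nat.pos_of_ne_zero hn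
    exact_mod_cast this
  have h1 : ‖(n : ℂ) ^ (-((t : ℂ) * Complex.I))‖ = 1 := by
    have := Complex.norm_cpow_eq_rpow_re_of_pos hn0 (-((t : ℂ) * Complex.I))
    rw [Complex.ofReal_natCast] at this
    rw [this]
    simp
  rw [bt, lpow, norm_mul, norm_mul, h1, mul_one, Complex.norm_real,
    Real.norm_of_nonneg (pow_nonneg hl J)]
  calc (Real.log n) ^ J * ‖L n‖ ≤ (Real.log n) ^ J * (a0 n * Real.log n) := by
        gcongr
        exact (D.L_le n).trans (L0_le_of D hn)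
    _ = _ := by ring

/-- partial sums of `bt` -/
noncomputable def BB (J : ℕ) (L : ℕ → ℂ) (t x : ℝ) : ℂ := ∑ n ∈ Icc 1 ⌊x⌋₊, bt J L t n

lemma one_le_log {x : ℝ} (hx : 3 ≤ x) : 1 ≤ Real.log x := by
  rw [Real.le_log_iff_exp_le (by linarith)]
  have := Real.exp_one_lt_d9
  linarith

lemma sharp (C0 : ℝ) (J : ℕ) : ∃ K : ℝ, 0 < K ∧
    ∀ (a0 L0 : ℕ → ℝ) (a L a2 L2 : ℕ → ℂ) (Q : ℝ), SWData a0 L0 a L a2 L2 C0 Q →
      ∀ (x t : ℝ), 3 ≤ x →
        ‖BB (2 * J + 1) L t x‖ ≤ K * x * (Real.log x) ^ (J + 1) * ell Q t ^ (20 * (J + 1)) := by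
  by_cases hC0 : 1 ≤ C0
  swap
  · exact ⟨1, one_pos, fun a0 L0 a L a2 L2 Q D => absurd D.C0_ge hC0⟩
  obtain ⟨K, hK, hKb⟩ := cesaro C0 (2 * J + 1)
  have hc := one_le_cj (J + 1)
  refine ⟨5 * K + 2 ^ (2 * J + 2) * (C0 * (1 + cj (J + 1))), by positivity, ?_⟩
  intro a0 L0 a L a2 L2 Q D x t hx
  have hQ := D.Q_ge
  have hx0 : 0 < x := by linarith
  have hlog := one_le_log hx
  have hlog0 : 0 < Real.log x := by linarith
  have hell := one_le_ell (t := t) hQ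
  set m := 20 * (J + 1) with hm
  have hm' : 10 * (2 * J + 1 + 1) = m := by rw [hm]; ring
  set h : ℝ := x / (Real.log x) ^ (J + 1) with hh
  have hpow1 : 1 ≤ (Real.log x) ^ (J + 1) := one_le_pow₀ hlog
  have hh0 : 0 < h := by positivity
  have hhx : h ≤ x := div_le_self hx0.le hpow1
  -- S
  have hS : ∀ X : ℝ, 3 ≤ X → ‖∑ n ∈ Icc 1 ⌊X⌋₊, bt (2 * J + 1) L t n * ((X - n : ℝ) : ℂ)‖ ≤
      K * X ^ 2 * ell Q t ^ m := by
    intro X hX
    have h1 := hKb a0 L0 a L a2 L2 Q D X t hX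
    rw [hm'] at h1
    have h2 : ∑ n ∈ Icc 1 ⌊X⌋₊, bt (2 * J + 1) L t n * ((X - n : ℝ) : ℂ) =
        (X : ℂ) * ∑ n ∈ Icc 1 ⌊X⌋₊, bt (2 * J + 1) L t n * (((1 - n / X : ℝ)) : ℂ) := by
      rw [Finset.mul_sum]
      refine Finset.sum_congr rfl fun n _ => ?_
      have : (X : ℂ) ≠ 0 := by exact_mod_cast (by linarith : X ≠ 0)
      push_cast
      field_simp
    rw [h2, norm_mul, Complex.norm_real, Real.norm_of_nonneg (by linarith)]
    calc X * _ ≤ X * (K * X * ell Q t ^ m) := by gcongr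
      _ = _ := by ring
  have hS1 := hS x hx
  have hS2 := hS (x + h) (by linarith)
  -- the difference
  have hfl : ⌊x⌋₊ ≤ ⌊x + h⌋₊ := Nat.floor_le_floor (by linarith)
  have hsplit : ∑ n ∈ Icc 1 ⌊x + h⌋₊, bt (2 * J + 1) L t n * ((x + h - n : ℝ) : ℂ) =
      ∑ n ∈ Icc 1 ⌊x⌋₊, bt (2 * J + 1) L t n * ((x - n : ℝ) : ℂ) +
        (h : ℂ) * BB (2 * J + 1) L t x +
        ∑ n ∈ Ioc ⌊x⌋₊ ⌊x + h⌋₊, bt (2 * J + 1) L t n * ((x + h - n : ℝ) : ℂ) := by
    have h1 : Icc 1 ⌊x + h⌋₊ = Icc 1 ⌊x⌋₊ ∪ Ioc ⌊x⌋₊ ⌊x + h⌋₊ := by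
      ext k
      simp only [mem_union, mem_Icc, mem_Ioc]
      omega
    rw [h1, Finset.sum_union, BB, Finset.mul_sum, ← Finset.sum_add_distrib]
    · congr 1
      refine Finset.sum_congr rfl fun n _ => ?_
      push_cast
      ring
    · rw [Finset.disjoint_left]
      intro k hk hk2
      have h1 := (mem_Icc.1 hk).2
      have h2 := (mem_Ioc.1 hk2).1
      omega
  have htailb : ‖∑ n ∈ Ioc ⌊x⌋₊ ⌊x + h⌋₊, bt (2 * J + 1) L t n * ((x + h - n : ℝ) : ℂ)‖ ≤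
      h * ((2 * Real.log x) ^ (2 * J + 2) * (C0 * (h + √x))) := by
    calc _ ≤ ∑ n ∈ Ioc ⌊x⌋₊ ⌊x + h⌋₊, ‖bt (2 * J + 1) L t n * ((x + h - n : ℝ) : ℂ)‖ :=
          norm_sum_le _ _
      _ ≤ ∑ n ∈ Ioc ⌊x⌋₊ ⌊x + h⌋₊, (2 * Real.log x) ^ (2 * J + 2) * h * a0 n := by
          refine Finset.sum_le_sum fun n hn => ?_
          have hn1 : ⌊x⌋₊ < n := (mem_Ioc.1 hn).1
          have hxn : x < n := (Nat.floor_lt hx0.le).1 hn1
          have hnx : (n : ℝ) ≤ x + h := (Nat.le_floor_iff (by linarith)).1 (mem_Ioc.1 hn).2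
          have hn0 : n ≠ 0 := by
            have := Nat.zero_le ⌊x⌋₊
            omega
          have hn0' : (0 : ℝ) < n := by linarith
          rw [norm_mul, Complex.norm_real, Real.norm_of_nonneg (by linarith)]
          have h1 := norm_bt_le D (2 * J + 1) t hn0
          have h2 : Real.log n ≤ 2 * Real.log x := by
            have : (n : ℝ) ≤ x ^ 2 := by nlinarith
            calc Real.log n ≤ Real.log (x ^ 2) := Real.log_le_log hn0' this
              _ = 2 * Real.log x := by rw [Real.log_pow]; norm_num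
          have h3 : 0 ≤ Real.log n := Real.log_natCast_nonneg n
          have h4 : x + h - n ≤ h := by linarith
          have ha := D.a0_nonneg n
          calc ‖bt (2 * J + 1) L t n‖ * (x + h - n)
              ≤ ((Real.log n) ^ (2 * J + 1 + 1) * a0 n) * h :=
                mul_le_mul h1 h4 (by linarith) (by positivity)
            _ ≤ ((2 * Real.log x) ^ (2 * J + 1 + 1) * a0 n) * h := by gcongr
            _ = _ := by ring
      _ = (2 * Real.log x) ^ (2 * J + 2) * h * ∑ n ∈ Ioc ⌊x⌋₊ ⌊x + h⌋₊, a0 n := by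
          rw [Finset.mul_sum]
      _ ≤ (2 * Real.log x) ^ (2 * J + 2) * h * (C0 * (h + √x)) := by
          have := D.short x h (by linarith) hh0.le hhx
          gcongr
      _ = _ := by ring
  have hsqrt : √x ≤ cj (J + 1) * h := by
    have h1 := log_pow_le (J + 1) (by linarith : (1 : ℝ) ≤ x)
    rw [hh, mul_div_assoc', le_div_iff₀ (by positivity)]
    have h2 : x ^ (1 / 8 : ℝ) ≤ √x := by
      rw [Real.sqrt_eq_rpow]
      exact Real.rpow_le_rpow_of_exponent_le (by linarith) (by norm_num)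
    calc √x * (Real.log x) ^ (J + 1) ≤ √x * (cj (J + 1) * √x) := by
          gcongr
          exact h1.trans (by gcongr)
      _ = cj (J + 1) * (√x * √x) := by ring
      _ = cj (J + 1) * x := by rw [Real.mul_self_sqrt hx0.le]
  have hB : h * ‖BB (2 * J + 1) L t x‖ ≤ K * (x + h) ^ 2 * ell Q t ^ m + K * x ^ 2 * ell Q t ^ m +
      h * ((2 * Real.log x) ^ (2 * J + 2) * (C0 * (h + √x))) := by
    have h1 : (h : ℂ) * BB (2 * J + 1) L t x =
        ∑ n ∈ Icc 1 ⌊x + h⌋₊, bt (2 * J + 1) L t n * ((x + h - n : ℝ) : ℂ) -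
        ∑ n ∈ Icc 1 ⌊x⌋₊, bt (2 * J + 1) L t n * ((x - n : ℝ) : ℂ) -
        ∑ n ∈ Ioc ⌊x⌋₊ ⌊x + h⌋₊, bt (2 * J + 1) L t n * ((x + h - n : ℝ) : ℂ) := by
      rw [hsplit]; ring
    have h2 : h * ‖BB (2 * J + 1) L t x‖ = ‖(h : ℂ) * BB (2 * J + 1) L t x‖ := by
      rw [norm_mul, Complex.norm_real, Real.norm_of_nonneg hh0.le]
    rw [h2, h1]
    refine (norm_sub_le _ _).trans (add_le_add ((norm_sub_le _ _).trans (add_le_add hS2 hS1)) htailb)
  have hsq : (x + h) ^ 2 ≤ 4 * x ^ 2 := by nlinarith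
  have hpe : (1 : ℝ) ≤ ell Q t ^ m := one_le_pow₀ hell
  have h5 : h * ‖BB (2 * J + 1) L t x‖ ≤ 5 * K * x ^ 2 * ell Q t ^ m +
      h * ((2 * Real.log x) ^ (2 * J + 2) * (C0 * ((1 + cj (J + 1)) * h))) := by
    refine hB.trans (add_le_add ?_ ?_)
    · have : K * (x + h) ^ 2 * ell Q t ^ m ≤ K * (4 * x ^ 2) * ell Q t ^ m := by gcongr
      linarith
    · have : h + √x ≤ (1 + cj (J + 1)) * h := by linarith
      gcongr
  have h6 : 5 * K * x ^ 2 * ell Q t ^ m +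
      h * ((2 * Real.log x) ^ (2 * J + 2) * (C0 * ((1 + cj (J + 1)) * h))) =
      h * (5 * K * x * (Real.log x) ^ (J + 1) * ell Q t ^ m +
        2 ^ (2 * J + 2) * (C0 * (1 + cj (J + 1))) * x * (Real.log x) ^ (J + 1)) := by
    have e1 : (2 * Real.log x) ^ (2 * J + 2) = 2 ^ (2 * J + 2) * (Real.log x) ^ (J + 1) *
        (Real.log x) ^ (J + 1) := by
      rw [mul_pow]; ring
    have e2 : h * (Real.log x) ^ (J + 1) = x := by
      rw [hh]; field_simp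
    rw [e1]
    linear_combination (-(5 * K * x * ell Q t ^ m) +
      2 ^ (2 * J + 2) * C0 * (1 + cj (J + 1)) * h * (Real.log x) ^ (J + 1)) * e2
  rw [h6] at h5
  have h7 := le_of_mul_le_mul_left h5 hh0
  refine h7.trans ?_
  have h8 : 2 ^ (2 * J + 2) * (C0 * (1 + cj (J + 1))) * x * (Real.log x) ^ (J + 1) ≤
      2 ^ (2 * J + 2) * (C0 * (1 + cj (J + 1))) * x * (Real.log x) ^ (J + 1) * ell Q t ^ m :=
    le_mul_of_one_le_right (by positivity) hpe
  nlinarith [h8]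

end Vale.Agent.P006.SW
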