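import Vale.Agent.P006.SW.Lower

/-!
# Siegel–Walfisz core: bounds for `E_k(s) = ∑ L(n) (log n)^k n^{-s}`
-/

namespace Vale.Agent.P006.SW

open Finset LSeries Filter Topology MeasureTheory

variable {a0 L0 : ℕ → ℝ} {a L a2 L2 : ℕ → ℂ} {C0 Q : ℝ}

lemma lpow_rec {a L : ℕ → ℂ} (h : IsLog a L) (k : ℕ) {n : ℕ} (hn : n ≠ 0) :
    lpow (k + 1) a n =
      (∑ j ∈ range (k + 1), ((k.choose j : ℕ) : ℂ) • (LSeries.convolution (lpow j L) (lpow (k - j) a))) n := by
  rw [Finset.sum_apply]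
  simp only [Pi.smul_apply, smul_eq_mul, LSeries.convolution_def]
  have h1 : lpow (k + 1) a n = (((Real.log n) ^ k : ℝ) : ℂ) *
      ∑ p ∈ n.divisorsAntidiagonal, L p.1 * a p.2 := by
    rw [← h n hn, lpow]
    push_cast
    ring
  rw [h1, Finset.mul_sum]
  have h2 : ∀ p ∈ n.divisorsAntidiagonal, (((Real.log n) ^ k : ℝ) : ℂ) * (L p.1 * a p.2) =
      ∑ j ∈ range (k + 1), ((k.choose j : ℕ) : ℂ) * (lpow j L p.1 * lpow (k - j) a p.2) := by
    intro p hp
    have hp' := Nat.mem_divisorsAntidiagonal.1 hp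
    have hp1 : (p.1 : ℝ) ≠ 0 := by
      intro h0
      have : p.1 = 0 := by exact_mod_cast h0
      rw [this, zero_mul] at hp'
      exact hn hp'.1.symm
    have hp2 : (p.2 : ℝ) ≠ 0 := by
      intro h0
      have : p.2 = 0 := by exact_mod_cast h0
      rw [this, mul_zero] at hp'
      exact hn hp'.1.symm
    have hlog : Real.log n = Real.log p.1 + Real.log p.2 := by
      rw [← Real.log_mul hp1 hp2]
      congr 1
      rw [← hp'.1]
      push_cast
      ring
    rw [hlog, add_pow]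
    push_cast
    rw [Finset.sum_mul]
    refine Finset.sum_congr rfl fun j _ => ?_
    simp only [lpow]
    push_cast
    ring
  rw [Finset.sum_congr rfl h2, Finset.sum_comm]
  refine Finset.sum_congr rfl fun j _ => ?_
  rw [Finset.mul_sum]

lemma D_rec {a L : ℕ → ℂ} (h : IsLog a L) (ha : abscissaOfAbsConv a ≤ 1)
    (hL : abscissaOfAbsConv L ≤ 1) (k : ℕ) {s : ℂ} (hs : 1 < s.re) :
    LSeries (lpow (k + 1) a) s = ∑ j ∈ range (k + 1),
      ((k.choose j : ℕ) : ℂ) * (LSeries (lpow j L) s * LSeries (lpow (k - j) a) s) := by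
  rw [LSeries_congr (fun {n} hn => lpow_rec h k hn) s]
  have hsL : ∀ j, LSeriesSummable (lpow j L) s := fun j =>
    LSeriesSummable_of_abscissaOfAbsConv_lt_re (lt_of_one (absc_lpow j hL) hs)
  have hsa : ∀ j, LSeriesSummable (lpow j a) s := fun j =>
    LSeriesSummable_of_abscissaOfAbsConv_lt_re (lt_of_one (absc_lpow j ha) hs)
  rw [LSeries_sum (fun j _ => ((hsL j).convolution (hsa (k - j))).smul _)]
  refine Finset.sum_congr rfl fun j _ => ?_
  rw [LSeries_smul, LSeries_convolution' (hsL j) (hsa (k - j))]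

lemma E_upper (C0 : ℝ) (k : ℕ) : ∃ E : ℝ, 1 ≤ E ∧
    ∀ (a0 L0 : ℕ → ℝ) (a L a2 L2 : ℕ → ℂ) (Q : ℝ), SWData a0 L0 a L a2 L2 C0 Q →
      ∀ s : ℂ, 1 < s.re → s.re ≤ 2 → ∀ j ≤ k,
        ‖LSeries (lpow j L) s‖ ≤ E * ell Q s.im ^ (10 * (j + 1)) := by
  by_cases hC0 : 1 ≤ C0
  swap
  · exact ⟨1, le_rfl, fun a0 L0 a L a2 L2 Q D => absurd D.C0_ge hC0⟩
  have step : ∀ (k : ℕ) (E : ℝ), 1 ≤ E →
      (∀ (a0 L0 : ℕ → ℝ) (a L a2 L2 : ℕ → ℂ) (Q : ℝ), SWData a0 L0 a L a2 L2 C0 Q →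
      ∀ s : ℂ, 1 < s.re → s.re ≤ 2 → ∀ j < k,
        ‖LSeries (lpow j L) s‖ ≤ E * ell Q s.im ^ (10 * (j + 1))) →
      ∃ E' : ℝ, 1 ≤ E' ∧ (∀ (a0 L0 : ℕ → ℝ) (a L a2 L2 : ℕ → ℂ) (Q : ℝ),
        SWData a0 L0 a L a2 L2 C0 Q →
      ∀ s : ℂ, 1 < s.re → s.re ≤ 2 → ∀ j ≤ k,
        ‖LSeries (lpow j L) s‖ ≤ E' * ell Q s.im ^ (10 * (j + 1))) := by
    intro k E hE ih
    have hcL := cL_pos hC0
    set T : ℝ := (cL C0)⁻¹ * (Kj C0 (k + 1) +
      ∑ j ∈ range k, (k.choose j : ℝ) * (E * Kj C0 (k - j))) with hT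
    refine ⟨max E T, le_max_of_le_left hE, ?_⟩
    intro a0 L0 a L a2 L2 Q D s hs hs2 j hj
    have hQ := D.Q_ge
    set ℓ := ell Q s.im with hℓ
    have hell : 1 ≤ ℓ := one_le_ell hQ
    have hell0 : 0 < ℓ := by linarith
    rcases lt_or_eq_of_le hj with hlt | rfl
    · refine (ih a0 L0 a L a2 L2 Q D s hs hs2 j hlt).trans ?_
      gcongr
      exact le_max_left _ _
    · have hrec := D_rec D.log1 (absc_a D) (absc_L D) j hs
      rw [Finset.sum_range_succ, Nat.choose_self, Nat.cast_one, one_mul, Nat.sub_self,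
        lpow_zero] at hrec
      have hprod : LSeries (lpow j L) s * LSeries a s = LSeries (lpow (j + 1) a) s -
          ∑ i ∈ range j, ((j.choose i : ℕ) : ℂ) *
            (LSeries (lpow i L) s * LSeries (lpow (j - i) a) s) := by
        rw [hrec]; ring
      have hlow := F_lower D hs hs2
      have hDb : ∀ i, ‖LSeries (lpow i a) s‖ ≤ Kj C0 i * ℓ ^ (i + 1) := fun i =>
        D_upper D D.a_le D.psum i hs hs2
      have hb : ‖LSeries (lpow j L) s * LSeries a s‖ ≤ (Kj C0 (j + 1) +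
          ∑ i ∈ range j, (j.choose i : ℝ) * (E * Kj C0 (j - i))) * ℓ ^ (10 * j + 3) := by
        rw [hprod, add_mul]
        refine (norm_sub_le _ _).trans (add_le_add ?_ ?_)
        · refine (hDb (j + 1)).trans ?_
          have := Kj_pos hC0 (j + 1)
          exact mul_le_mul_of_nonneg_left (pow_le_pow_right₀ hell (by omega)) this.le
        · refine (norm_sum_le _ _).trans ?_
          rw [Finset.sum_mul]
          refine Finset.sum_le_sum fun i hi => ?_
          have hi' : i < j := Finset.mem_range.1 hi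
          rw [norm_mul, norm_mul, Complex.norm_natCast]
          have h1 := ih a0 L0 a L a2 L2 Q D s hs hs2 i hi'
          have h2 := hDb (j - i)
          have hK := Kj_pos hC0 (j - i)
          calc (j.choose i : ℝ) * (‖LSeries (lpow i L) s‖ * ‖LSeries (lpow (j - i) a) s‖)
              ≤ (j.choose i : ℝ) * ((E * ℓ ^ (10 * (i + 1))) * (Kj C0 (j - i) * ℓ ^ (j - i + 1))) := by
                gcongr
            _ = (j.choose i : ℝ) * (E * Kj C0 (j - i)) * ℓ ^ (10 * (i + 1) + (j - i + 1)) := by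
                rw [pow_add]; ring
            _ ≤ _ :=
                mul_le_mul_of_nonneg_left (pow_le_pow_right₀ hell (by omega)) (by positivity)
      have hpos : 0 < cL C0 / ℓ ^ 7 := by positivity
      have h3 : ‖LSeries (lpow j L) s‖ * (cL C0 / ℓ ^ 7) ≤ (Kj C0 (j + 1) +
          ∑ i ∈ range j, (j.choose i : ℝ) * (E * Kj C0 (j - i))) * ℓ ^ (10 * j + 3) := by
        refine le_trans ?_ hb
        rw [norm_mul]
        gcongr
      have h4 : ‖LSeries (lpow j L) s‖ ≤ T * ℓ ^ (10 * (j + 1)) := by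
        rw [← le_div_iff₀ hpos] at h3
        refine h3.trans (le_of_eq ?_)
        rw [hT, div_div_eq_mul_div, show 10 * (j + 1) = 10 * j + 3 + 7 by ring, pow_add]
        generalize (Kj C0 (j + 1) + ∑ i ∈ range j, (j.choose i : ℝ) * (E * Kj C0 (j - i))) = W
        field_simp
        ring
      refine h4.trans ?_
      gcongr
      exact le_max_right _ _
  induction k with
  | zero =>
    obtain ⟨E', hE', h⟩ := step 0 1 le_rfl (fun _ _ _ _ _ _ _ _ _ _ _ j hj => absurd hj (by omega))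
    exact ⟨E', hE', h⟩
  | succ k ih =>
    obtain ⟨E, hE, h⟩ := ih
    obtain ⟨E', hE', h'⟩ := step (k + 1) E hE
      (fun a0 L0 a L a2 L2 Q D s hs hs2 j hj => h a0 L0 a L a2 L2 Q D s hs hs2 j (by omega))
    exact ⟨E', hE', h'⟩

end Vale.Agent.P006.SW
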