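import Vale.Agent.P006.SW.Upper

/-!
# Siegel–Walfisz core: 3-4-1 and the lower bound for `|F(s)|`
-/

namespace Vale.Agent.P006.SW

open Finset LSeries Filter Topology MeasureTheory

variable {a0 L0 : ℕ → ℝ} {a L a2 L2 : ℕ → ℂ} {C0 Q : ℝ}

lemma term_divLog (L : ℕ → ℂ) (σ t : ℝ) {n : ℕ} (hn : n ≠ 0) :
    term (divLog L) ((σ : ℂ) + t * Complex.I) n =
      (((n : ℝ) ^ (-σ) / Real.log n : ℝ) : ℂ) * (L n * (n : ℂ) ^ (-((t : ℂ) * Complex.I))) := by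
  have hn' : (n : ℂ) ≠ 0 := by exact_mod_cast hn
  rw [term_of_ne_zero hn, divLog, Complex.cpow_add _ _ hn', Complex.cpow_neg]
  push_cast
  rw [Complex.ofReal_cpow (Nat.cast_nonneg n), Complex.ofReal_neg, Complex.cpow_neg]
  push_cast
  simp only [div_eq_mul_inv, mul_inv]
  ring

lemma key341 (D : SWData a0 L0 a L a2 L2 C0 Q) {σ : ℝ} (hσ : 1 < σ) (t : ℝ) :
    1 ≤ ‖LSeries (cx a0) (σ : ℂ)‖ ^ 3 * ‖LSeries a ((σ : ℂ) + t * Complex.I)‖ ^ 4 *
      ‖LSeries a2 ((σ : ℂ) + ((2 * t : ℝ) : ℂ) * Complex.I)‖ := by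
  have hre : ∀ u : ℝ, 1 < ((σ : ℂ) + u * Complex.I).re := by intro u; simpa using hσ
  have hL1 : L 1 = 0 := L_one D.log1 D.a_one
  have hL21 : L2 1 = 0 := L_one D.log2 D.a2_one
  have ha01 : cx a0 1 = 1 := by simp [cx, D.a0_one]
  have hL01 : cx L0 1 = 0 := L_one D.log0 ha01
  have e0 : LSeries (cx a0) (σ : ℂ) = Complex.exp (LSeries (divLog (cx L0)) (σ : ℂ)) :=
    F_eq_exp D.log0 ha01 (absc_a0 D) (absc_L0 D) (by simpa using hσ)
  have e1 := F_eq_exp D.log1 D.a_one (absc_a D) (absc_L D) (hre t)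
  have e2 := F_eq_exp D.log2 D.a2_one (absc_a2 D) (absc_L2 D) (hre (2 * t))
  rw [e0, e1, e2, Complex.norm_exp, Complex.norm_exp, Complex.norm_exp, ← Real.exp_nat_mul,
    ← Real.exp_nat_mul, ← Real.exp_add, ← Real.exp_add]
  apply Real.one_le_exp
  have s0 : LSeriesSummable (divLog (cx L0)) ((σ : ℂ) + ((0 : ℝ) : ℂ) * Complex.I) :=
    LSeriesSummable_of_abscissaOfAbsConv_lt_re
      (lt_of_one (absc_divLog hL01 (absc_L0 D)) (hre 0))
  have s1 : LSeriesSummable (divLog L) ((σ : ℂ) + t * Complex.I) :=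
    LSeriesSummable_of_abscissaOfAbsConv_lt_re (lt_of_one (absc_divLog hL1 (absc_L D)) (hre t))
  have s2 : LSeriesSummable (divLog L2) ((σ : ℂ) + ((2 * t : ℝ) : ℂ) * Complex.I) :=
    LSeriesSummable_of_abscissaOfAbsConv_lt_re
      (lt_of_one (absc_divLog hL21 (absc_L2 D)) (hre (2 * t)))
  have h0 := Complex.reCLM.hasSum s0.LSeriesHasSum
  have h1 := Complex.reCLM.hasSum s1.LSeriesHasSum
  have h2 := Complex.reCLM.hasSum s2.LSeriesHasSum
  have e3 : LSeries (divLog (cx L0)) (σ : ℂ) =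
      LSeries (divLog (cx L0)) ((σ : ℂ) + ((0 : ℝ) : ℂ) * Complex.I) := by simp
  rw [e3]
  have h3 := ((h0.mul_left 3).add (h1.mul_left 4)).add h2
  simp only [Complex.reCLM_apply] at h3
  have h4 := h3.nonneg (fun n => ?_)
  · rw [show ((3 : ℕ) : ℝ) = 3 by norm_num, show ((4 : ℕ) : ℝ) = 4 by norm_num]
    exact h4
  · rcases eq_or_ne n 0 with rfl | hn
    · simp
    · rw [term_divLog _ _ _ hn, term_divLog _ _ _ hn, term_divLog _ _ _ hn]
      rw [Complex.re_ofReal_mul, Complex.re_ofReal_mul, Complex.re_ofReal_mul]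
      have h5 := D.tfo n t hn
      have h6 : 0 ≤ (n : ℝ) ^ (-σ) / Real.log n :=
        div_nonneg (by positivity) (Real.log_natCast_nonneg n)
      have h7 : (cx L0 n * (n : ℂ) ^ (-(((0 : ℝ) : ℂ) * Complex.I))).re = L0 n := by
        simp [cx]
      rw [h7]
      have := mul_nonneg h6 h5
      linarith

lemma Kj_ge_one {C0 : ℝ} (hC0 : 1 ≤ C0) (j : ℕ) : 1 ≤ Kj C0 j := by
  have h1 := one_le_cj j
  have h2 : (1 : ℝ) ≤ 4 ^ j := one_le_pow₀ (by norm_num)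
  have hj : (0 : ℝ) ≤ j := Nat.cast_nonneg j
  unfold Kj
  nlinarith [mul_nonneg (by linarith : (0 : ℝ) ≤ C0) (by linarith : (0 : ℝ) ≤ (4 : ℝ) ^ j - 1),
    mul_nonneg (by linarith : (0 : ℝ) ≤ cj j) (by linarith : (0 : ℝ) ≤ (j : ℝ) + 2)]

/-- auxiliary constants -/
noncomputable def cA (C0 : ℝ) : ℝ := 1 / (16 * C0 ^ 3 * Kj C0 0)
noncomputable def cE (C0 : ℝ) : ℝ := cA C0 / (2 * Kj C0 1)
noncomputable def cL (C0 : ℝ) : ℝ := cE C0 ^ 3 * cA C0 / 2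

lemma cA_pos {C0 : ℝ} (hC0 : 1 ≤ C0) : 0 < cA C0 := by
  have := Kj_pos hC0 0
  unfold cA
  positivity

lemma cA_le_one {C0 : ℝ} (hC0 : 1 ≤ C0) : cA C0 ≤ 1 := by
  have h1 := Kj_ge_one hC0 0
  have h2 : (1 : ℝ) ≤ C0 ^ 3 := one_le_pow₀ hC0
  unfold cA
  rw [div_le_one (by positivity)]
  nlinarith

lemma cE_pos {C0 : ℝ} (hC0 : 1 ≤ C0) : 0 < cE C0 := by
  have := Kj_pos hC0 1
  have := cA_pos hC0
  unfold cE
  positivity

lemma cE_le_one {C0 : ℝ} (hC0 : 1 ≤ C0) : cE C0 ≤ 1 := by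
  have h1 := Kj_ge_one hC0 1
  have := cA_le_one hC0
  unfold cE
  rw [div_le_one (by positivity)]
  nlinarith

lemma cL_pos {C0 : ℝ} (hC0 : 1 ≤ C0) : 0 < cL C0 := by
  have := cE_pos hC0
  have := cA_pos hC0
  unfold cL
  positivity

lemma ell_two_mul {Q t : ℝ} (hQ : 3 ≤ Q) : ell Q (2 * t) ≤ 2 * ell Q t := by
  have h1 : 6 ≤ Q * (|t| + 2) := by nlinarith [abs_nonneg t]
  have h3 : 2 * (Q * (|t| + 2)) ≤ (Q * (|t| + 2)) ^ 2 := by nlinarith
  have h2 : Q * (|2 * t| + 2) ≤ (Q * (|t| + 2)) ^ 2 := by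
    refine le_trans ?_ h3
    rw [abs_mul, abs_two]
    nlinarith [abs_nonneg t]
  unfold ell
  calc Real.log (Q * (|2 * t| + 2)) ≤ Real.log ((Q * (|t| + 2)) ^ 2) :=
        Real.log_le_log (by positivity) h2
    _ = 2 * Real.log (Q * (|t| + 2)) := by rw [Real.log_pow]; norm_num

lemma F_lower_aux (D : SWData a0 L0 a L a2 L2 C0 Q) {σ : ℝ} (hσ : 1 < σ) (hσ2 : σ ≤ 2) (t : ℝ) :
    cA C0 * (σ - 1) ^ 3 / ell Q t ≤ ‖LSeries a ((σ : ℂ) + t * Complex.I)‖ ^ 4 := by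
  have hC0 := D.C0_ge
  have hQ := D.Q_ge
  have hell := one_le_ell (t := t) hQ
  have h := key341 D hσ t
  have h0 : ‖LSeries (cx a0) (σ : ℂ)‖ ≤ 2 * C0 / (σ - 1) := by
    refine (norm_F0_le D hσ).trans ?_
    apply div_le_div_of_nonneg_right _ (by linarith)
    nlinarith
  have h2 : ‖LSeries a2 ((σ : ℂ) + ((2 * t : ℝ) : ℂ) * Complex.I)‖ ≤ Kj C0 0 * (2 * ell Q t) := by
    have h3 := D_upper D D.a2_le D.psum2 0 (s := (σ : ℂ) + ((2 * t : ℝ) : ℂ) * Complex.I)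
      (by simpa using hσ) (by simpa using hσ2)
    rw [lpow_zero] at h3
    have h4 : ((σ : ℂ) + ((2 * t : ℝ) : ℂ) * Complex.I).im = 2 * t := by simp
    rw [h4, zero_add, pow_one] at h3
    refine h3.trans ?_
    have := Kj_pos hC0 0
    have := ell_two_mul (t := t) hQ
    gcongr
  set F := ‖LSeries a ((σ : ℂ) + t * Complex.I)‖ with hF
  have hF0 : 0 ≤ F := norm_nonneg _
  have hK := Kj_pos hC0 0
  have h5 : 1 ≤ (2 * C0 / (σ - 1)) ^ 3 * F ^ 4 * (Kj C0 0 * (2 * ell Q t)) := by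
    refine h.trans ?_
    gcongr
  have hσ1 : 0 < σ - 1 := by linarith
  have h6 : (2 * C0 / (σ - 1)) ^ 3 * F ^ 4 * (Kj C0 0 * (2 * ell Q t)) =
      F ^ 4 * ((16 * C0 ^ 3 * Kj C0 0) * ell Q t / (σ - 1) ^ 3) := by
    rw [div_pow]; ring
  rw [h6] at h5
  have h7 : 0 < (16 * C0 ^ 3 * Kj C0 0) * ell Q t / (σ - 1) ^ 3 := by positivity
  have h8 : cA C0 * (σ - 1) ^ 3 / ell Q t = 1 / ((16 * C0 ^ 3 * Kj C0 0) * ell Q t / (σ - 1) ^ 3) := by
    unfold cA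
    field_simp
  rw [h8, div_le_iff₀ h7]
  exact h5

/-- far from the `1`-line -/
lemma F_lower_far (D : SWData a0 L0 a L a2 L2 C0 Q) {σ : ℝ} (hσ2 : σ ≤ 2) (t : ℝ)
    (hσ : 1 + cE C0 ^ 4 / ell Q t ^ 9 ≤ σ) :
    cE C0 ^ 3 * cA C0 / ell Q t ^ 7 ≤ ‖LSeries a ((σ : ℂ) + t * Complex.I)‖ := by
  have hC0 := D.C0_ge
  have hQ := D.Q_ge
  have hell := one_le_ell (t := t) hQ
  have hE := cE_pos hC0
  have hA := cA_pos hC0
  have hA1 := cA_le_one hC0
  have hδ : 0 < cE C0 ^ 4 / ell Q t ^ 9 := by positivity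
  have h := F_lower_aux D (by linarith : 1 < σ) hσ2 t
  have h1 : (cE C0 ^ 3 * cA C0 / ell Q t ^ 7) ^ 4 ≤ cA C0 * (σ - 1) ^ 3 / ell Q t := by
    have h2 : (cE C0 ^ 4 / ell Q t ^ 9) ^ 3 ≤ (σ - 1) ^ 3 := by gcongr; linarith
    have h3 : cA C0 ^ 4 ≤ cA C0 := by
      calc cA C0 ^ 4 ≤ cA C0 ^ 1 := pow_le_pow_of_le_one hA.le hA1 (by norm_num)
        _ = _ := pow_one _
    calc (cE C0 ^ 3 * cA C0 / ell Q t ^ 7) ^ 4
        = cA C0 ^ 4 * (cE C0 ^ 4 / ell Q t ^ 9) ^ 3 / ell Q t := by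
          field_simp
      _ ≤ cA C0 * (σ - 1) ^ 3 / ell Q t := by gcongr
  exact le_of_pow_le_pow_left₀ (by norm_num) (norm_nonneg _) (h1.trans h)

lemma F_lower (D : SWData a0 L0 a L a2 L2 C0 Q) {s : ℂ} (hs : 1 < s.re) (hs2 : s.re ≤ 2) :
    cL C0 / ell Q s.im ^ 7 ≤ ‖LSeries a s‖ := by
  have hC0 := D.C0_ge
  have hQ := D.Q_ge
  set t := s.im with ht
  set σ := s.re with hσdef
  have hst : s = (σ : ℂ) + t * Complex.I := by rw [hσdef, ht, Complex.re_add_im]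
  have hell := one_le_ell (t := t) hQ
  have hE := cE_pos hC0
  have hA := cA_pos hC0
  have hE1 := cE_le_one hC0
  have hK1 := Kj_pos hC0 1
  set δ : ℝ := cE C0 ^ 4 / ell Q t ^ 9 with hδdef
  have hδ : 0 < δ := by positivity
  have hδ1 : δ ≤ 1 := by
    rw [hδdef, div_le_one (by positivity)]
    exact (pow_le_one₀ hE.le hE1).trans (one_le_pow₀ hell)
  rcases le_or_gt (1 + δ) σ with hcase | hcase
  · have h := F_lower_far D hs2 t hcase
    rw [hst]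
    refine le_trans ?_ h
    rw [cL]
    have : 0 ≤ cE C0 ^ 3 * cA C0 := by positivity
    gcongr
    linarith
  · have h := F_lower_far D (σ := 1 + δ) (by linarith) t le_rfl
    -- mean value
    let S : Set ℂ := {z | σ ≤ z.re ∧ z.re ≤ 1 + δ ∧ z.im = t}
    have hSconv : Convex ℝ S := by
      have h1 : Convex ℝ {z : ℂ | σ ≤ z.re} := convex_halfSpace_re_ge σ
      have h2 : Convex ℝ {z : ℂ | z.re ≤ 1 + δ} := convex_halfSpace_re_le (1 + δ)
      have h3 : Convex ℝ {z : ℂ | z.im = t} := by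
        intro x hx y hy a b _ _ hab
        simp only [Set.mem_ofPred_eq] at *
        simp only [Complex.add_im, Complex.smul_im, hx, hy, smul_eq_mul]
        rw [← add_mul, hab, one_mul]
      exact h1.inter (h2.inter h3)
    have hderiv : ∀ z ∈ S, HasDerivWithinAt (LSeries a) (-LSeries (logMul a) z) S z := by
      intro z hz
      exact (LSeries_hasDerivAt (lt_of_one (absc_a D) (lt_of_lt_of_le hs hz.1))).hasDerivWithinAt
    have hbound : ∀ z ∈ S, ‖-LSeries (logMul a) z‖ ≤ Kj C0 1 * ell Q t ^ 2 := by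
      intro z hz
      rw [norm_neg]
      have h4 := D_upper D D.a_le D.psum 1 (s := z) (lt_of_lt_of_le hs hz.1)
        (hz.2.1.trans (by linarith))
      rw [hz.2.2, lpow_succ, lpow_zero] at h4
      exact h4
    have hmv := hSconv.norm_image_sub_le_of_norm_hasDerivWithin_le hderiv hbound
      (x := s) (y := ((1 + δ : ℝ) : ℂ) + t * Complex.I)
      ⟨le_rfl, hcase.le, rfl⟩ ⟨by simp; linarith, by simp, by simp⟩
    have hdist : ‖((1 + δ : ℝ) : ℂ) + t * Complex.I - s‖ ≤ δ := by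
      rw [hst]
      have : ((1 + δ : ℝ) : ℂ) + t * Complex.I - ((σ : ℂ) + t * Complex.I) =
          ((1 + δ - σ : ℝ) : ℂ) := by push_cast; ring
      rw [this, Complex.norm_real, Real.norm_of_nonneg (by linarith)]
      linarith
    have h5 : ‖LSeries a (((1 + δ : ℝ) : ℂ) + t * Complex.I) - LSeries a s‖ ≤
        cE C0 ^ 3 * cA C0 / 2 / ell Q t ^ 7 := by
      refine hmv.trans ?_
      calc Kj C0 1 * ell Q t ^ 2 * ‖((1 + δ : ℝ) : ℂ) + t * Complex.I - s‖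
          ≤ Kj C0 1 * ell Q t ^ 2 * δ := by gcongr
        _ = cE C0 ^ 3 * (Kj C0 1 * cE C0) / ell Q t ^ 7 := by
            rw [hδdef]; field_simp
        _ = cE C0 ^ 3 * cA C0 / 2 / ell Q t ^ 7 := by
            have : Kj C0 1 * cE C0 = cA C0 / 2 := by
              unfold cE; field_simp
            rw [this]; ring
    have h6 : ‖LSeries a (((1 + δ : ℝ) : ℂ) + t * Complex.I)‖ ≤
        ‖LSeries a (((1 + δ : ℝ) : ℂ) + t * Complex.I) - LSeries a s‖ + ‖LSeries a s‖ := by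
      have := norm_add_le (LSeries a (((1 + δ : ℝ) : ℂ) + t * Complex.I) - LSeries a s) (LSeries a s)
      simpa using this
    have h7 : cE C0 ^ 3 * cA C0 / ell Q t ^ 7 - cE C0 ^ 3 * cA C0 / 2 / ell Q t ^ 7 =
        cL C0 / ell Q t ^ 7 := by
      rw [cL]; ring
    linarith

end Vale.Agent.P006.SW
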