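import Vale.Agent.P006.SW.Basic

/-!
# Siegel–Walfisz core: bound for tails `∑_{N<n≤M} a(n) (log n)^j n^{-s}`
-/

namespace Vale.Agent.P006.SW

open Finset LSeries Filter Topology MeasureTheory

/-- constant with `(log t)^j ≤ cj j * t^(1/8)` for `t ≥ 1` -/
noncomputable def cj (j : ℕ) : ℝ := (8 * ((j : ℝ) + 1)) ^ j

lemma one_le_cj (j : ℕ) : 1 ≤ cj j := by
  unfold cj
  apply one_le_pow₀
  have : (0 : ℝ) ≤ j := Nat.cast_nonneg j
  linarith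

lemma cj_mono (j : ℕ) : cj (j - 1) ≤ cj j := by
  rcases Nat.eq_zero_or_pos j with rfl | hj
  · simp
  · unfold cj
    have h1 : ((j - 1 : ℕ) : ℝ) ≤ j := by exact_mod_cast Nat.sub_le j 1
    have h0 : (0 : ℝ) ≤ ((j - 1 : ℕ) : ℝ) := Nat.cast_nonneg _
    calc (8 * (((j - 1 : ℕ) : ℝ) + 1)) ^ (j - 1) ≤ (8 * ((j : ℝ) + 1)) ^ (j - 1) := by
          gcongr
      _ ≤ (8 * ((j : ℝ) + 1)) ^ j := by
          apply pow_le_pow_right₀
          · have : (0 : ℝ) ≤ j := Nat.cast_nonneg j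
            linarith
          · exact Nat.sub_le j 1

lemma log_pow_le (j : ℕ) {t : ℝ} (ht : 1 ≤ t) : (Real.log t) ^ j ≤ cj j * t ^ (1 / 8 : ℝ) := by
  have ht0 : 0 ≤ t := by linarith
  have hj1 : (0 : ℝ) < 8 * ((j : ℝ) + 1) := by positivity
  have h1 : Real.log t ≤ t ^ (1 / (8 * ((j : ℝ) + 1))) / (1 / (8 * ((j : ℝ) + 1))) :=
    Real.log_le_rpow_div ht0 (by positivity)
  have h0 : 0 ≤ Real.log t := Real.log_nonneg ht
  calc (Real.log t) ^ j ≤ (t ^ (1 / (8 * ((j : ℝ) + 1))) / (1 / (8 * ((j : ℝ) + 1)))) ^ j := by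
        gcongr
    _ = cj j * t ^ ((1 / (8 * ((j : ℝ) + 1))) * j) := by
        rw [Real.rpow_mul_natCast ht0, cj, ← mul_pow]
        congr 1
        rw [div_div_eq_mul_div, div_one, mul_comm]
    _ ≤ cj j * t ^ (1 / 8 : ℝ) := by
        have := one_le_cj j
        have he : 1 / (8 * ((j : ℝ) + 1)) * j ≤ 1 / 8 := by
          rw [div_mul_eq_mul_div, one_mul, div_le_div_iff₀ hj1 (by norm_num)]
          nlinarith [(Nat.cast_nonneg j : (0 : ℝ) ≤ j)]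
        have := Real.rpow_le_rpow_of_exponent_le ht he
        gcongr

/-- the test function `(log t)^j t^{-s}` -/
noncomputable def gj (j : ℕ) (s : ℂ) (t : ℝ) : ℂ := (((Real.log t) ^ j : ℝ) : ℂ) * (t : ℂ) ^ (-s)

noncomputable def gj' (j : ℕ) (s : ℂ) (t : ℝ) : ℂ :=
  (((j : ℝ) * (Real.log t) ^ (j - 1) * t⁻¹ : ℝ) : ℂ) * (t : ℂ) ^ (-s) +
    (((Real.log t) ^ j : ℝ) : ℂ) * ((-s) * (t : ℂ) ^ (-s - 1))

lemma gj_hasDerivAt (j : ℕ) {s : ℂ} (hs : s ≠ 0) {t : ℝ} (ht : 0 < t) :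
    HasDerivAt (gj j s) (gj' j s t) t := by
  have h1 : HasDerivAt (fun t : ℝ => (Real.log t) ^ j) ((j : ℝ) * (Real.log t) ^ (j - 1) * t⁻¹) t :=
    (Real.hasDerivAt_log ht.ne').pow j
  have h2 := h1.ofReal_comp
  have h3 := hasDerivAt_ofReal_cpow_const (x := t) ht.ne' (r := -s) (neg_ne_zero.2 hs)
  exact h2.mul h3

lemma norm_gj_le (j : ℕ) {s : ℂ} (hs : 1 ≤ s.re) {t : ℝ} (ht : 1 ≤ t) :
    ‖gj j s t‖ ≤ cj j * t ^ (-(7 / 8) : ℝ) := by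
  have ht0 : 0 < t := by linarith
  have h0 : 0 ≤ Real.log t := Real.log_nonneg ht
  rw [gj, norm_mul, Complex.norm_real, Real.norm_of_nonneg (pow_nonneg h0 j),
    Complex.norm_cpow_eq_rpow_re_of_pos ht0, Complex.neg_re]
  have h1 := log_pow_le j ht
  have hcj := one_le_cj j
  have h2 : t ^ (-s.re) ≤ t ^ (-1 : ℝ) := Real.rpow_le_rpow_of_exponent_le ht (by linarith)
  calc (Real.log t) ^ j * t ^ (-s.re) ≤ (cj j * t ^ (1 / 8 : ℝ)) * t ^ (-1 : ℝ) := by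
        gcongr
    _ = cj j * t ^ (-(7 / 8) : ℝ) := by
        rw [mul_assoc, ← Real.rpow_add ht0]
        norm_num

lemma norm_gj'_le (j : ℕ) {s : ℂ} (hs : 1 ≤ s.re) {t : ℝ} (ht : 1 ≤ t) :
    ‖gj' j s t‖ ≤ cj j * ((j : ℝ) + ‖s‖) * t ^ (-(15 / 8) : ℝ) := by
  have ht0 : 0 < t := by linarith
  have h0 : 0 ≤ Real.log t := Real.log_nonneg ht
  have hj : (0 : ℝ) ≤ j := Nat.cast_nonneg j
  have h1 := log_pow_le j ht
  have h1' : (Real.log t) ^ (j - 1) ≤ cj j * t ^ (1 / 8 : ℝ) :=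
    (log_pow_le (j - 1) ht).trans (by have := cj_mono j; gcongr)
  have h2 : t ^ (-s.re) ≤ t ^ (-1 : ℝ) := Real.rpow_le_rpow_of_exponent_le ht (by linarith)
  have h3 : t ^ (-s.re - 1) ≤ t ^ (-2 : ℝ) := Real.rpow_le_rpow_of_exponent_le ht (by linarith)
  have hcj := one_le_cj j
  rw [gj']
  refine (norm_add_le _ _).trans ?_
  have e1 : ‖(((j : ℝ) * (Real.log t) ^ (j - 1) * t⁻¹ : ℝ) : ℂ) * (t : ℂ) ^ (-s)‖ ≤
      cj j * j * t ^ (-(15 / 8) : ℝ) := by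
    rw [norm_mul, Complex.norm_real, Real.norm_of_nonneg (by positivity),
      Complex.norm_cpow_eq_rpow_re_of_pos ht0, Complex.neg_re]
    calc (j : ℝ) * (Real.log t) ^ (j - 1) * t⁻¹ * t ^ (-s.re)
        ≤ (j : ℝ) * (cj j * t ^ (1 / 8 : ℝ)) * t ^ (-1 : ℝ) * t ^ (-1 : ℝ) := by
          rw [Real.rpow_neg_one]
          gcongr
          rwa [Real.rpow_neg_one] at h2
      _ = cj j * j * (t ^ (1 / 8 : ℝ) * t ^ (-1 : ℝ) * t ^ (-1 : ℝ)) := by ring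
      _ = cj j * j * t ^ (-(15 / 8) : ℝ) := by
          rw [← Real.rpow_add ht0, ← Real.rpow_add ht0]
          norm_num
  have e2 : ‖(((Real.log t) ^ j : ℝ) : ℂ) * ((-s) * (t : ℂ) ^ (-s - 1))‖ ≤
      cj j * ‖s‖ * t ^ (-(15 / 8) : ℝ) := by
    rw [norm_mul, norm_mul, Complex.norm_real, Real.norm_of_nonneg (pow_nonneg h0 j),
      Complex.norm_cpow_eq_rpow_re_of_pos ht0, norm_neg]
    have : (-s - 1).re = -s.re - 1 := by simp
    rw [this]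
    calc (Real.log t) ^ j * (‖s‖ * t ^ (-s.re - 1))
        ≤ (cj j * t ^ (1 / 8 : ℝ)) * (‖s‖ * t ^ (-2 : ℝ)) := by gcongr
      _ = cj j * ‖s‖ * (t ^ (1 / 8 : ℝ) * t ^ (-2 : ℝ)) := by ring
      _ = _ := by
          rw [← Real.rpow_add ht0]
          norm_num
  calc _ ≤ cj j * j * t ^ (-(15 / 8) : ℝ) + cj j * ‖s‖ * t ^ (-(15 / 8) : ℝ) := add_le_add e1 e2
    _ = _ := by ring

/-- the tail bound -/
lemma tail_bound (j : ℕ) {a : ℕ → ℂ} {Q : ℝ} (hQ : 0 ≤ Q)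
    (psum : ∀ x : ℝ, 1 ≤ x → ‖∑ n ∈ Icc 1 ⌊x⌋₊, a n‖ ≤ Q * √x)
    {s : ℂ} (hs : 1 ≤ s.re) {N M : ℕ} (hN : 1 ≤ N) (hNM : N ≤ M) :
    ‖∑ k ∈ Ioc N M, gj j s k * a k‖ ≤
      (cj j * (2 + 8 / 3 * ((j : ℝ) + ‖s‖))) * Q * (N : ℝ) ^ (-(3 / 8) : ℝ) := by
  have hs0 : s ≠ 0 := by
    rintro rfl
    simp at hs
    linarith
  set c : ℕ → ℂ := fun k => if k = 0 then 0 else a k with hc
  have hcs : ∀ t : ℝ, ∑ k ∈ Icc 0 ⌊t⌋₊, c k = ∑ k ∈ Icc 1 ⌊t⌋₊, a k := by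
    intro t
    rw [Finset.Icc_eq_cons_Ioc (Nat.zero_le _), Finset.sum_cons]
    simp only [hc, if_true, zero_add]
    refine Finset.sum_congr (by ext; simp [Finset.mem_Ioc, Finset.mem_Icc]; omega) ?_
    intro k hk
    have := (Finset.mem_Icc.1 hk).1
    rw [if_neg (by omega)]
  have hN1 : (1 : ℝ) ≤ (N : ℝ) := by exact_mod_cast hN
  have hM1 : (1 : ℝ) ≤ (M : ℝ) := by exact_mod_cast hN.trans hNM
  have hNM' : (N : ℝ) ≤ (M : ℝ) := by exact_mod_cast hNM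
  have hdiff : ∀ t ∈ Set.Icc (N : ℝ) M, HasDerivAt (gj j s) (gj' j s t) t := fun t ht =>
    gj_hasDerivAt j hs0 (by linarith [ht.1])
  have hcont : ContinuousOn (gj' j s) (Set.Icc (N : ℝ) M) := by
    unfold gj'
    have hne : ∀ t ∈ Set.Icc (N : ℝ) M, t ≠ 0 := fun t ht => by linarith [ht.1]
    have hlog : ContinuousOn (fun t : ℝ => Real.log t) (Set.Icc (N : ℝ) M) :=
      Real.continuousOn_log.mono (fun t ht => hne t ht)
    have hcp : ∀ w : ℂ, ContinuousOn (fun t : ℝ => (t : ℂ) ^ w) (Set.Icc (N : ℝ) M) := by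
      intro w t ht
      refine ContinuousAt.continuousWithinAt ?_
      exact (Complex.continuousAt_ofReal_cpow_const t w (Or.inr (hne t ht)))
    refine ContinuousOn.add ?_ ?_
    · refine ContinuousOn.mul (Complex.continuous_ofReal.comp_continuousOn ?_) (hcp _)
      exact (continuousOn_const.mul (hlog.pow _)).mul (continuousOn_inv₀.mono hne)
    · refine ContinuousOn.mul (Complex.continuous_ofReal.comp_continuousOn (hlog.pow _)) ?_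
      exact continuousOn_const.mul (hcp _)
  have hderiv : Set.EqOn (deriv (gj j s)) (gj' j s) (Set.Icc (N : ℝ) M) := fun t ht =>
    (hdiff t ht).deriv
  have hint : IntegrableOn (deriv (gj j s)) (Set.Icc (N : ℝ) M) :=
    (hcont.integrableOn_Icc).congr_fun hderiv.symm measurableSet_Icc
  have habel := sum_mul_eq_sub_sub_integral_mul c (f := gj j s) (a := (N : ℝ)) (b := (M : ℝ))
    (by positivity) hNM' (fun t ht => (hdiff t ht).differentiableAt) hint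
  rw [Nat.floor_natCast, Nat.floor_natCast] at habel
  have hsum : ∑ k ∈ Ioc N M, gj j s k * a k = ∑ k ∈ Ioc N M, gj j s k * c k := by
    refine Finset.sum_congr rfl (fun k hk => ?_)
    have := (Finset.mem_Ioc.1 hk).1
    simp [hc, show k ≠ 0 by omega]
  have hA : ∀ t : ℝ, 1 ≤ t → ‖∑ k ∈ Icc 0 ⌊t⌋₊, c k‖ ≤ Q * t ^ (1 / 2 : ℝ) := by
    intro t ht
    rw [hcs t, ← Real.sqrt_eq_rpow]
    exact psum t ht
  have hboundary : ∀ t : ℝ, (N : ℝ) ≤ t → ‖gj j s t * ∑ k ∈ Icc 0 ⌊t⌋₊, c k‖ ≤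
      cj j * Q * (N : ℝ) ^ (-(3 / 8) : ℝ) := by
    intro t ht
    have ht1 : 1 ≤ t := hN1.trans ht
    have ht0 : 0 < t := by linarith
    rw [norm_mul]
    have hcj := one_le_cj j
    calc ‖gj j s t‖ * ‖∑ k ∈ Icc 0 ⌊t⌋₊, c k‖
        ≤ (cj j * t ^ (-(7 / 8) : ℝ)) * (Q * t ^ (1 / 2 : ℝ)) :=
          mul_le_mul (norm_gj_le j hs ht1) (hA t ht1) (norm_nonneg _) (by positivity)
      _ = cj j * Q * (t ^ (-(7 / 8) : ℝ) * t ^ (1 / 2 : ℝ)) := by ring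
      _ = cj j * Q * t ^ (-(3 / 8) : ℝ) := by
          rw [← Real.rpow_add ht0]; norm_num
      _ ≤ cj j * Q * (N : ℝ) ^ (-(3 / 8) : ℝ) := by
          have h := Real.rpow_le_rpow_of_nonpos (x := (N : ℝ)) (y := t) (by linarith) ht
            (z := (-(3 / 8) : ℝ)) (by norm_num)
          gcongr
  have hbN := hboundary N le_rfl
  have hbM := hboundary M hNM'
  rw [Nat.floor_natCast] at hbN hbM
  have hI : ‖∫ t in Set.Ioc (N : ℝ) M, deriv (gj j s) t * ∑ k ∈ Icc 0 ⌊t⌋₊, c k‖ ≤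
      cj j * ((j : ℝ) + ‖s‖) * Q * (8 / 3 * (N : ℝ) ^ (-(3 / 8) : ℝ)) := by
    have hdom : IntegrableOn (fun t : ℝ => cj j * ((j : ℝ) + ‖s‖) * Q * t ^ (-(11 / 8) : ℝ))
        (Set.Ioi (N : ℝ)) :=
      (integrableOn_Ioi_rpow_of_lt (by norm_num) (by linarith)).const_mul _
    have hcj := one_le_cj j
    have h1 : ‖∫ t in Set.Ioc (N : ℝ) M, deriv (gj j s) t * ∑ k ∈ Icc 0 ⌊t⌋₊, c k‖ ≤
        ∫ t in Set.Ioc (N : ℝ) M, cj j * ((j : ℝ) + ‖s‖) * Q * t ^ (-(11 / 8) : ℝ) := by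
      refine norm_integral_le_of_norm_le (hdom.mono_set Set.Ioc_subset_Ioi_self) ?_
      refine (ae_restrict_iff' measurableSet_Ioc).2 (Eventually.of_forall fun t ht => ?_)
      have ht1 : 1 ≤ t := by linarith [ht.1]
      have ht0 : 0 < t := by linarith
      rw [hderiv ⟨ht.1.le, ht.2⟩, norm_mul]
      calc ‖gj' j s t‖ * ‖∑ k ∈ Icc 0 ⌊t⌋₊, c k‖
          ≤ (cj j * ((j : ℝ) + ‖s‖) * t ^ (-(15 / 8) : ℝ)) * (Q * t ^ (1 / 2 : ℝ)) :=
            mul_le_mul (norm_gj'_le j hs ht1) (hA t ht1) (norm_nonneg _) (by positivity)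
        _ = cj j * ((j : ℝ) + ‖s‖) * Q * (t ^ (-(15 / 8) : ℝ) * t ^ (1 / 2 : ℝ)) := by ring
        _ = _ := by rw [← Real.rpow_add ht0]; norm_num
    refine h1.trans ?_
    have h2 : ∫ t in Set.Ioc (N : ℝ) M, cj j * ((j : ℝ) + ‖s‖) * Q * t ^ (-(11 / 8) : ℝ) ≤
        ∫ t in Set.Ioi (N : ℝ), cj j * ((j : ℝ) + ‖s‖) * Q * t ^ (-(11 / 8) : ℝ) := by
      refine setIntegral_mono_set hdom ?_ Set.Ioc_subset_Ioi_self.eventuallyLE
      refine (ae_restrict_iff' measurableSet_Ioi).2 (Eventually.of_forall fun t ht => ?_)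
      have ht0 : (0 : ℝ) < t := lt_trans (by linarith) (Set.mem_Ioi.1 ht)
      simp only [Pi.zero_apply]
      positivity
    refine h2.trans ?_
    rw [integral_const_mul, integral_Ioi_rpow_of_lt (by norm_num) (by linarith)]
    have : -(N : ℝ) ^ (-(11 / 8) + 1 : ℝ) / (-(11 / 8) + 1 : ℝ) =
        8 / 3 * (N : ℝ) ^ (-(3 / 8) : ℝ) := by
      have e : (-(11 / 8) + 1 : ℝ) = -(3 / 8) := by norm_num
      rw [e]
      ring
    rw [this]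
  rw [hsum, habel]
  calc _ ≤ ‖gj j s M * ∑ k ∈ Icc 0 M, c k‖ + ‖gj j s N * ∑ k ∈ Icc 0 N, c k‖ +
        ‖∫ t in Set.Ioc (N : ℝ) M, deriv (gj j s) t * ∑ k ∈ Icc 0 ⌊t⌋₊, c k‖ := by
        refine (norm_sub_le _ _).trans ?_
        gcongr
        exact norm_sub_le _ _
    _ ≤ cj j * Q * (N : ℝ) ^ (-(3 / 8) : ℝ) + cj j * Q * (N : ℝ) ^ (-(3 / 8) : ℝ) +
        cj j * ((j : ℝ) + ‖s‖) * Q * (8 / 3 * (N : ℝ) ^ (-(3 / 8) : ℝ)) := by
        gcongr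
    _ = _ := by ring

end Vale.Agent.P006.SW
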