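import Vale.Agent.P006.SW.LogDer

/-!
# Siegel–Walfisz core: Mellin inversion for the weight `(1 - x)_+`
-/

namespace Vale.Agent.P006.SW

open Finset Filter Topology MeasureTheory

/-- the weight `(1-x)_+` for `x>0` -/
noncomputable def tent : ℝ → ℂ := fun t =>
  Set.indicator (Set.Ioc 0 1) (fun _ => (1 : ℂ)) t -
    Set.indicator (Set.Ioc 0 1) (fun t : ℝ => (t : ℂ) ^ (1 : ℂ)) t

lemma tent_eq {x : ℝ} (hx : 0 < x) : tent x = ((max (1 - x) 0 : ℝ) : ℂ) := by
  unfold tent
  rcases le_or_gt x 1 with h | h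
  · have hm : x ∈ Set.Ioc (0 : ℝ) 1 := ⟨hx, h⟩
    rw [Set.indicator_of_mem hm, Set.indicator_of_mem hm, Complex.cpow_one,
      max_eq_left (by linarith)]
    push_cast
    rfl
  · have : x ∉ Set.Ioc (0 : ℝ) 1 := fun h' => absurd h'.2 (not_le.2 h)
    rw [Set.indicator_of_notMem this, Set.indicator_of_notMem this, max_eq_right (by linarith)]
    simp

lemma hasMellin_tent {s : ℂ} (hs : 0 < s.re) :
    HasMellin tent s (1 / s - 1 / (s + 1)) := by
  have h1 := hasMellin_one_Ioc hs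
  have h2 := hasMellin_cpow_Ioc 1 (s := s) (by simp; linarith)
  have h3 := hasMellin_sub h1.1 h2.1
  rw [h1.2, h2.2] at h3
  exact h3

lemma mellin_tent {s : ℂ} (hs : 0 < s.re) : mellin tent s = 1 / (s * (s + 1)) := by
  rw [(hasMellin_tent hs).2]
  have h0 : s ≠ 0 := by rintro rfl; simp at hs
  have h1 : s + 1 ≠ 0 := by
    intro h
    have := congrArg Complex.re h
    simp at this
    linarith
  field_simp
  ring

lemma norm_mellin_tent_le {σ : ℝ} (hσ : 1 ≤ σ) (y : ℝ) :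
    ‖mellin tent ((σ : ℂ) + y * Complex.I)‖ ≤ 2 * (1 + |y|) ^ (-2 : ℝ) := by
  rw [mellin_tent (by simp; linarith), norm_div, norm_one, norm_mul]
  have h1 : 1 + |y| ≤ √2 * ‖(σ : ℂ) + y * Complex.I‖ := by
    have hn : ‖(σ : ℂ) + y * Complex.I‖ = √(σ ^ 2 + y ^ 2) := by
      rw [Complex.norm_def, Complex.normSq_apply]
      simp
      ring_nf
    rw [hn, ← Real.sqrt_mul (by norm_num)]
    apply Real.le_sqrt_of_sq_le
    nlinarith [sq_abs y, sq_nonneg (1 - |y|), abs_nonneg y]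
  have h2 : ‖(σ : ℂ) + y * Complex.I‖ ≤ ‖(σ : ℂ) + y * Complex.I + 1‖ := by
    rw [Complex.norm_def, Complex.norm_def]
    apply Real.sqrt_le_sqrt
    simp only [Complex.normSq_apply, Complex.add_re, Complex.add_im, Complex.ofReal_re,
      Complex.mul_re, Complex.I_re, Complex.ofReal_im, Complex.I_im, Complex.mul_im,
      Complex.one_re, Complex.one_im]
    nlinarith
  have hpos : 0 < 1 + |y| := by positivity
  have h3 : (1 + |y|) ^ 2 ≤ 2 * (‖(σ : ℂ) + y * Complex.I‖ * ‖(σ : ℂ) + y * Complex.I + 1‖) := by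
    have h4 : (1 + |y|) ^ 2 ≤ (√2 * ‖(σ : ℂ) + y * Complex.I‖) ^ 2 := by gcongr
    rw [mul_pow, Real.sq_sqrt (by norm_num)] at h4
    refine h4.trans ?_
    rw [sq]
    gcongr
  have h5 : 0 < ‖(σ : ℂ) + y * Complex.I‖ * ‖(σ : ℂ) + y * Complex.I + 1‖ := by
    have : 0 < (1 + |y|) ^ 2 := by positivity
    linarith
  rw [Real.rpow_neg hpos.le, show (2 : ℝ) = ((2 : ℕ) : ℝ) by norm_num, Real.rpow_natCast,
    div_le_iff₀ h5, ← div_eq_mul_inv, div_mul_eq_mul_div, le_div_iff₀ (by positivity)]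
  push_cast
  linarith

lemma measurable_mellin_tent {σ : ℝ} (hσ : 1 ≤ σ) :
    Continuous (fun y : ℝ => mellin tent ((σ : ℂ) + y * Complex.I)) := by
  have h : (fun y : ℝ => mellin tent ((σ : ℂ) + y * Complex.I)) =
      fun y : ℝ => 1 / (((σ : ℂ) + y * Complex.I) * ((σ : ℂ) + y * Complex.I + 1)) := by
    ext y
    rw [mellin_tent (by simp; linarith)]
  rw [h]
  refine Continuous.div continuous_const (by fun_prop) (fun y => ?_)
  intro h0
  rcases mul_eq_zero.1 h0 with h1 | h1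
  · have := congrArg Complex.re h1
    simp at this
    linarith
  · have := congrArg Complex.re h1
    simp at this
    linarith

lemma integrable_mellin_tent {σ : ℝ} (hσ : 1 ≤ σ) :
    Integrable (fun y : ℝ => mellin tent ((σ : ℂ) + y * Complex.I)) := by
  have h1 : Integrable (fun y : ℝ => 2 * (1 + ‖y‖) ^ (-2 : ℝ)) :=
    (integrable_one_add_norm (by simp)).const_mul 2
  refine h1.mono' (measurable_mellin_tent hσ).aestronglyMeasurable ?_
  exact Eventually.of_forall fun y => norm_mellin_tent_le hσ y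

lemma tent_inversion {σ : ℝ} (hσ : 1 ≤ σ) {x : ℝ} (hx : 0 < x) :
    ((max (1 - x) 0 : ℝ) : ℂ) = (1 / (2 * Real.pi) : ℝ) • ∫ y : ℝ,
      (x : ℂ) ^ (-((σ : ℂ) + y * Complex.I)) * mellin tent ((σ : ℂ) + y * Complex.I) := by
  have h := mellinInv_mellin_eq σ tent hx (hasMellin_tent (s := (σ : ℂ)) (by simp; linarith)).1
    (integrable_mellin_tent hσ) ?_
  · rw [← tent_eq hx, ← h, mellinInv]
    rfl
  · have h1 : ContinuousAt (fun x : ℝ => ((max (1 - x) 0 : ℝ) : ℂ)) x := by fun_prop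
    refine h1.congr ?_
    filter_upwards [eventually_gt_nhds hx] with y hy
    exact (tent_eq hy).symm

end Vale.Agent.P006.SW
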