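import Vale.Agent.P006.SW.Tail

/-!
# Siegel–Walfisz core: upper bounds for `D_j(s) = ∑ a(n) (log n)^j n^{-s}`
-/

namespace Vale.Agent.P006.SW

open Finset LSeries Filter Topology MeasureTheory

variable {a0 L0 : ℕ → ℝ} {a L a2 L2 : ℕ → ℂ} {C0 Q : ℝ}

/-- `a(n) (log n)^j` -/
noncomputable def lpow (j : ℕ) (a : ℕ → ℂ) : ℕ → ℂ := fun n => (((Real.log n) ^ j : ℝ) : ℂ) * a n

lemma lpow_zero (a : ℕ → ℂ) : lpow 0 a = a := by
  ext n; simp [lpow]

lemma lpow_succ (j : ℕ) (a : ℕ → ℂ) : lpow (j + 1) a = logMul (lpow j a) := by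
  ext n
  simp only [lpow, logMul]
  rw [← Complex.natCast_log]
  push_cast
  ring

lemma absc_lpow (j : ℕ) {a : ℕ → ℂ} (ha : abscissaOfAbsConv a ≤ 1) :
    abscissaOfAbsConv (lpow j a) ≤ 1 := by
  induction j with
  | zero => rwa [lpow_zero]
  | succ j ih => rw [lpow_succ, abscissaOfAbsConv_logMul]; exact ih

/-- real Dirichlet series of the majorant -/
lemma norm_F0_le (D : SWData a0 L0 a L a2 L2 C0 Q) {σ : ℝ} (hσ : 1 < σ) :
    ‖LSeries (cx a0) (σ : ℂ)‖ ≤ C0 * σ / (σ - 1) := by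
  have hbig : (fun n ↦ ∑ k ∈ Icc 1 n, ‖cx a0 k‖) =O[atTop] fun n ↦ (n : ℝ) ^ (1 : ℝ) := by
    refine Asymptotics.IsBigO.of_bound C0 ?_
    filter_upwards [eventually_ge_atTop 1] with n hn
    have h1 : (1 : ℝ) ≤ (n : ℝ) := by exact_mod_cast hn
    have h2 := D.count n h1
    rw [Nat.floor_natCast] at h2
    rw [Real.rpow_one, Real.norm_of_nonneg (Finset.sum_nonneg fun _ _ => norm_nonneg _),
      Real.norm_of_nonneg (by positivity)]
    refine le_trans (le_of_eq ?_) h2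
    refine Finset.sum_congr rfl fun k _ => ?_
    simp [cx, abs_of_nonneg (D.a0_nonneg k)]
  rw [LSeries_eq_mul_integral' (cx a0) zero_le_one (s := (σ : ℂ)) (by simpa using hσ) hbig,
    norm_mul, Complex.norm_real, Real.norm_of_nonneg (by linarith)]
  have hint : ‖∫ t in Set.Ioi (1 : ℝ), (∑ k ∈ Icc 1 ⌊t⌋₊, cx a0 k) * (t : ℂ) ^ (-((σ : ℂ) + 1))‖ ≤
      ∫ t in Set.Ioi (1 : ℝ), C0 * t ^ (-σ) := by
    refine norm_integral_le_of_norm_le
      ((integrableOn_Ioi_rpow_of_lt (by linarith) one_pos).const_mul _) ?_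
    refine (ae_restrict_iff' measurableSet_Ioi).2 (Eventually.of_forall fun t ht => ?_)
    have ht1 : 1 < t := ht
    have ht0 : 0 < t := by linarith
    rw [norm_mul, Complex.norm_cpow_eq_rpow_re_of_pos ht0]
    have e1 : (-((σ : ℂ) + 1)).re = -σ - 1 := by simp; ring
    rw [e1]
    have e2 : ‖∑ k ∈ Icc 1 ⌊t⌋₊, cx a0 k‖ ≤ C0 * t := by
      refine (norm_sum_le _ _).trans (le_trans (le_of_eq ?_) (D.count t ht1.le))
      refine Finset.sum_congr rfl fun k _ => ?_
      simp [cx, abs_of_nonneg (D.a0_nonneg k)]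
    calc _ ≤ (C0 * t) * t ^ (-σ - 1) := by gcongr
      _ = C0 * (t ^ (1 : ℝ) * t ^ (-σ - 1)) := by rw [Real.rpow_one]; ring
      _ = C0 * t ^ (-σ) := by rw [← Real.rpow_add ht0]; congr 2; ring
  rw [integral_const_mul, integral_Ioi_rpow_of_lt (by linarith) one_pos] at hint
  rw [Real.one_rpow] at hint
  have h3 : (-1 : ℝ) / (-σ + 1) = 1 / (σ - 1) := by
    rw [show (-σ + 1 : ℝ) = -(σ - 1) by ring, neg_div_neg_eq]
  rw [h3] at hint
  calc σ * _ ≤ σ * (C0 * (1 / (σ - 1))) := by gcongr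
    _ = _ := by ring

lemma F0_real (D : SWData a0 L0 a L a2 L2 C0 Q) {σ : ℝ} (hσ : 1 < σ) :
    HasSum (fun n : ℕ => if n = 0 then 0 else a0 n * (n : ℝ) ^ (-σ))
      ‖LSeries (cx a0) (σ : ℂ)‖ := by
  have h1 : LSeriesSummable (cx a0) (σ : ℂ) :=
    LSeriesSummable_of_abscissaOfAbsConv_lt_re (lt_of_one (absc_a0 D) (by simpa using hσ))
  have h2 : ∀ n : ℕ, term (cx a0) (σ : ℂ) n =
      (((if n = 0 then 0 else a0 n * (n : ℝ) ^ (-σ)) : ℝ) : ℂ) := by
    intro n
    rcases eq_or_ne n 0 with rfl | hn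
    · simp
    · rw [term_of_ne_zero hn, if_neg hn, Complex.ofReal_mul, Complex.ofReal_cpow (Nat.cast_nonneg n),
        Complex.ofReal_neg, Complex.cpow_neg, div_eq_mul_inv]
      simp [cx]
  have h3 : HasSum (fun n : ℕ => (((if n = 0 then 0 else a0 n * (n : ℝ) ^ (-σ)) : ℝ) : ℂ))
      (LSeries (cx a0) (σ : ℂ)) := by
    have := h1.LSeriesHasSum
    unfold LSeriesHasSum at this
    rwa [funext h2] at this
  have h4 : LSeries (cx a0) (σ : ℂ) =
      ((∑' n : ℕ, (if n = 0 then 0 else a0 n * (n : ℝ) ^ (-σ)) : ℝ) : ℂ) := by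
    rw [Complex.ofReal_tsum]
    exact h3.tsum_eq.symm
  have h5 : Summable (fun n : ℕ => (if n = 0 then 0 else a0 n * (n : ℝ) ^ (-σ))) := by
    have := h3.summable
    exact_mod_cast this
  have h6 : 0 ≤ ∑' n : ℕ, (if n = 0 then 0 else a0 n * (n : ℝ) ^ (-σ)) := by
    refine tsum_nonneg fun n => ?_
    split_ifs
    · exact le_rfl
    · have := D.a0_nonneg n
      positivity
  rw [h4, Complex.norm_real, Real.norm_of_nonneg h6]
  exact h5.hasSum

/-- head of the majorant -/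
lemma head_le (D : SWData a0 L0 a L a2 L2 C0 Q) {N : ℕ} (hN : 3 ≤ N) :
    ∑ n ∈ Icc 1 N, a0 n * (n : ℝ) ^ (-1 : ℝ) ≤ 6 * C0 * Real.log N := by
  have hN3 : (3 : ℝ) ≤ N := by exact_mod_cast hN
  have hlog : 1 < Real.log N := by
    have h := Real.exp_one_lt_d9
    rw [Real.lt_log_iff_exp_lt (by linarith)]
    linarith
  set σ : ℝ := 1 + 1 / Real.log N with hσdef
  have hσ : 1 < σ := by
    have : 0 < 1 / Real.log N := by positivity
    linarith
  have hσ2 : σ ≤ 2 := by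
    have : 1 / Real.log N ≤ 1 := by
      rw [div_le_one (by linarith)]; exact hlog.le
    linarith
  have hs := F0_real D hσ
  have h1 : ∑ n ∈ Icc 1 N, a0 n * (n : ℝ) ^ (-σ) ≤ ‖LSeries (cx a0) (σ : ℂ)‖ := by
    have := sum_le_hasSum (Icc 1 N) (fun n _ => ?_) hs
    · refine le_trans (le_of_eq ?_) this
      refine Finset.sum_congr rfl fun n hn => ?_
      have := (Finset.mem_Icc.1 hn).1
      rw [if_neg (by omega)]
    · split_ifs
      · exact le_rfl
      · have := D.a0_nonneg n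
        positivity
  have h2 : ∑ n ∈ Icc 1 N, a0 n * (n : ℝ) ^ (-1 : ℝ) ≤
      Real.exp 1 * ∑ n ∈ Icc 1 N, a0 n * (n : ℝ) ^ (-σ) := by
    rw [Finset.mul_sum]
    refine Finset.sum_le_sum fun n hn => ?_
    have hn1 : 1 ≤ n := (Finset.mem_Icc.1 hn).1
    have hnN : n ≤ N := (Finset.mem_Icc.1 hn).2
    have hn1' : (1 : ℝ) ≤ n := by exact_mod_cast hn1
    have hnN' : (n : ℝ) ≤ N := by exact_mod_cast hnN
    have hn0 : (0 : ℝ) < n := by linarith
    have ha := D.a0_nonneg n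
    have h3 : (n : ℝ) ^ (1 / Real.log N) ≤ Real.exp 1 := by
      calc (n : ℝ) ^ (1 / Real.log N) ≤ (N : ℝ) ^ (1 / Real.log N) := by
            apply Real.rpow_le_rpow hn0.le hnN' (by positivity)
        _ = Real.exp 1 := by
            rw [Real.rpow_def_of_pos (by linarith)]
            congr 1
            field_simp
    have h4 : (n : ℝ) ^ (-1 : ℝ) = (n : ℝ) ^ (1 / Real.log N) * (n : ℝ) ^ (-σ) := by
      rw [← Real.rpow_add hn0, hσdef]
      congr 1
      ring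
    rw [h4]
    calc a0 n * ((n : ℝ) ^ (1 / Real.log N) * (n : ℝ) ^ (-σ)) ≤
        a0 n * (Real.exp 1 * (n : ℝ) ^ (-σ)) := by gcongr
      _ = _ := by ring
  have h3 := norm_F0_le D hσ
  have hC0 := D.C0_ge
  have h4 : C0 * σ / (σ - 1) ≤ 2 * C0 * Real.log N := by
    have e : σ - 1 = 1 / Real.log N := by rw [hσdef]; ring
    rw [e, div_div_eq_mul_div, div_one]
    nlinarith [mul_nonneg (by linarith : (0 : ℝ) ≤ C0) (by linarith : (0 : ℝ) ≤ Real.log N)]
  have he : Real.exp 1 ≤ 3 := by have := Real.exp_one_lt_d9; linarith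
  calc _ ≤ Real.exp 1 * ∑ n ∈ Icc 1 N, a0 n * (n : ℝ) ^ (-σ) := h2
    _ ≤ 3 * (2 * C0 * Real.log N) := by
        refine mul_le_mul he ((h1.trans h3).trans h4) ?_ (by norm_num)
        exact Finset.sum_nonneg fun n _ => mul_nonneg (D.a0_nonneg n) (by positivity)
    _ = _ := by ring

/-- `ℓ = log (Q (|t| + 2))` -/
noncomputable def ell (Q t : ℝ) : ℝ := Real.log (Q * (|t| + 2))

lemma one_le_ell {Q t : ℝ} (hQ : 3 ≤ Q) : 1 ≤ ell Q t := by
  have h : 6 ≤ Q * (|t| + 2) := by nlinarith [abs_nonneg t]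
  rw [ell, Real.le_log_iff_exp_le (by linarith)]
  have := Real.exp_one_lt_d9
  linarith

/-- constants for the upper bounds -/
noncomputable def Kj (C0 : ℝ) (j : ℕ) : ℝ := 24 * C0 * 4 ^ j + cj j * (8 / 3 * ((j : ℝ) + 2))

lemma Kj_pos {C0 : ℝ} (hC0 : 1 ≤ C0) (j : ℕ) : 0 < Kj C0 j := by
  have := one_le_cj j
  unfold Kj
  positivity

lemma D_upper (D : SWData a0 L0 a L a2 L2 C0 Q) {f : ℕ → ℂ} (hf : ∀ n, ‖f n‖ ≤ a0 n)
    (psum : ∀ x : ℝ, 1 ≤ x → ‖∑ n ∈ Icc 1 ⌊x⌋₊, f n‖ ≤ Q * √x) (j : ℕ)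
    {s : ℂ} (hs : 1 < s.re) (hs2 : s.re ≤ 2) :
    ‖LSeries (lpow j f) s‖ ≤ Kj C0 j * (ell Q s.im) ^ (j + 1) := by
  have hQ := D.Q_ge
  have hC0 := D.C0_ge
  set X : ℝ := Q * (|s.im| + 2) with hX
  have hX6 : 6 ≤ X := by rw [hX]; nlinarith [abs_nonneg s.im]
  have hell : ell Q s.im = Real.log X := rfl
  have hell1 : 1 ≤ Real.log X := by rw [← hell]; exact one_le_ell hQ
  set N : ℕ := ⌈X ^ 3⌉₊ with hN
  have hNX : X ^ 3 ≤ N := Nat.le_ceil _
  have hNX4 : (N : ℝ) ≤ X ^ 4 := by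
    have h1 : (N : ℝ) < X ^ 3 + 1 := Nat.ceil_lt_add_one (by positivity)
    have h2 : (1 : ℝ) ≤ X ^ 3 := one_le_pow₀ (by linarith)
    nlinarith
  have hN216 : (216 : ℝ) ≤ N := by
    have : (6 : ℝ) ^ 3 ≤ X ^ 3 := by gcongr
    linarith
  have hN3 : 3 ≤ N := by
    have : (3 : ℝ) ≤ N := by linarith
    exact_mod_cast this
  have hN0 : (0 : ℝ) < N := by linarith
  have hlogN : Real.log N ≤ 4 * Real.log X := by
    calc Real.log N ≤ Real.log (X ^ 4) := Real.log_le_log hN0 hNX4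
      _ = 4 * Real.log X := by rw [Real.log_pow]; norm_num
  have hlogN0 : 0 ≤ Real.log N := Real.log_natCast_nonneg N
  have hsum : LSeriesSummable (lpow j f) s :=
    LSeriesSummable_of_abscissaOfAbsConv_lt_re
      (lt_of_one (absc_lpow j (absc_of_le_a0 D fun n _ => hf n)) hs)
  have hterm : ∀ n : ℕ, n ≠ 0 → term (lpow j f) s n = gj j s n * f n := by
    intro n hn
    rw [term_of_ne_zero hn, lpow, gj, Complex.cpow_neg, div_eq_mul_inv]
    push_cast
    ring
  -- partial sums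
  have hpart : ∀ M : ℕ, N ≤ M → ‖∑ n ∈ range (M + 1), term (lpow j f) s n‖ ≤
      Kj C0 j * (Real.log X) ^ (j + 1) := by
    intro M hM
    have hsplit : ∑ n ∈ range (M + 1), term (lpow j f) s n =
        ∑ n ∈ Icc 1 N, gj j s n * f n + ∑ n ∈ Ioc N M, gj j s n * f n := by
      have h1 : range (M + 1) = insert 0 (Icc 1 N ∪ Ioc N M) := by
        ext k
        simp only [mem_range, mem_insert, mem_union, mem_Icc, mem_Ioc]
        omega
      rw [h1, Finset.sum_insert (by simp), Finset.sum_union]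
      · rw [term_zero, zero_add]
        congr 1
        · exact Finset.sum_congr rfl fun k hk => hterm k (by have := (mem_Icc.1 hk).1; omega)
        · exact Finset.sum_congr rfl fun k hk => hterm k (by have := (mem_Ioc.1 hk).1; omega)
      · rw [Finset.disjoint_left]
        intro k hk hk2
        have h1 := (mem_Icc.1 hk).2
        have h2 := (mem_Ioc.1 hk2).1
        omega
    rw [hsplit]
    have hhead : ‖∑ n ∈ Icc 1 N, gj j s n * f n‖ ≤ 24 * C0 * 4 ^ j * (Real.log X) ^ (j + 1) := by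
      calc ‖∑ n ∈ Icc 1 N, gj j s n * f n‖ ≤ ∑ n ∈ Icc 1 N, ‖gj j s n * f n‖ := norm_sum_le _ _
        _ ≤ ∑ n ∈ Icc 1 N, (Real.log N) ^ j * (a0 n * (n : ℝ) ^ (-1 : ℝ)) := by
            refine Finset.sum_le_sum fun n hn => ?_
            have hn1 : 1 ≤ n := (mem_Icc.1 hn).1
            have hn1' : (1 : ℝ) ≤ n := by exact_mod_cast hn1
            have hnN : (n : ℝ) ≤ N := by exact_mod_cast (mem_Icc.1 hn).2
            have hn0 : (0 : ℝ) < n := by linarith
            have hl : 0 ≤ Real.log n := Real.log_nonneg hn1'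
            rw [norm_mul, gj, norm_mul, Complex.norm_real, Real.norm_of_nonneg (by positivity),
              Complex.norm_cpow_eq_rpow_re_of_pos hn0, Complex.neg_re]
            have h1 : Real.log n ≤ Real.log N := Real.log_le_log hn0 hnN
            have h2 : (n : ℝ) ^ (-s.re) ≤ (n : ℝ) ^ (-1 : ℝ) :=
              Real.rpow_le_rpow_of_exponent_le hn1' (by linarith)
            calc (Real.log n) ^ j * (n : ℝ) ^ (-s.re) * ‖f n‖ ≤
                (Real.log N) ^ j * (n : ℝ) ^ (-1 : ℝ) * a0 n := by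
                  have := hf n
                  gcongr
              _ = _ := by ring
        _ = (Real.log N) ^ j * ∑ n ∈ Icc 1 N, (a0 n * (n : ℝ) ^ (-1 : ℝ)) := by
            rw [Finset.mul_sum]
        _ ≤ (Real.log N) ^ j * (6 * C0 * Real.log N) := by
            gcongr
            exact head_le D hN3
        _ = 6 * C0 * (Real.log N) ^ (j + 1) := by ring
        _ ≤ 6 * C0 * (4 * Real.log X) ^ (j + 1) := by gcongr
        _ = _ := by rw [mul_pow]; ring
    have htail : ‖∑ n ∈ Ioc N M, gj j s n * f n‖ ≤ cj j * (8 / 3 * ((j : ℝ) + 2)) := by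
      have h1 := tail_bound j (by linarith : (0 : ℝ) ≤ Q) psum hs.le (by omega : 1 ≤ N) hM
      refine h1.trans ?_
      have hcj := one_le_cj j
      have hnorm : ‖s‖ ≤ 2 + |s.im| := by
        refine (Complex.norm_le_abs_re_add_abs_im s).trans ?_
        rw [abs_of_pos (by linarith : 0 < s.re)]
        linarith
      have hNpow : (N : ℝ) ^ (-(3 / 8) : ℝ) ≤ X⁻¹ := by
        calc (N : ℝ) ^ (-(3 / 8) : ℝ) ≤ (X ^ 3) ^ (-(3 / 8) : ℝ) :=
              Real.rpow_le_rpow_of_nonpos (by positivity) hNX (by norm_num)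
          _ = X ^ (-(9 / 8) : ℝ) := by
              rw [← Real.rpow_natCast X 3, ← Real.rpow_mul (by linarith)]
              norm_num
          _ ≤ X ^ (-1 : ℝ) := Real.rpow_le_rpow_of_exponent_le (by linarith) (by norm_num)
          _ = X⁻¹ := Real.rpow_neg_one X
      have hj0 : (0 : ℝ) ≤ j := Nat.cast_nonneg j
      have h5 : 2 + 8 / 3 * ((j : ℝ) + ‖s‖) ≤ 8 / 3 * ((j : ℝ) + 2) * (|s.im| + 2) := by
        nlinarith [abs_nonneg s.im, mul_nonneg hj0 (abs_nonneg s.im)]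
      calc (cj j * (2 + 8 / 3 * ((j : ℝ) + ‖s‖))) * Q * (N : ℝ) ^ (-(3 / 8) : ℝ)
          ≤ (cj j * (8 / 3 * ((j : ℝ) + 2) * (|s.im| + 2))) * Q * X⁻¹ := by
            gcongr
        _ = cj j * (8 / 3 * ((j : ℝ) + 2)) * (X * X⁻¹) := by rw [hX]; ring
        _ = _ := by rw [mul_inv_cancel₀ (by linarith), mul_one]
    have hell_pow : 1 ≤ (Real.log X) ^ (j + 1) := one_le_pow₀ hell1
    calc _ ≤ ‖∑ n ∈ Icc 1 N, gj j s n * f n‖ + ‖∑ n ∈ Ioc N M, gj j s n * f n‖ := norm_add_le _ _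
      _ ≤ 24 * C0 * 4 ^ j * (Real.log X) ^ (j + 1) +
          cj j * (8 / 3 * ((j : ℝ) + 2)) * (Real.log X) ^ (j + 1) := by
          refine add_le_add hhead (htail.trans ?_)
          have hcj := one_le_cj j
          have hpos : 0 ≤ cj j * (8 / 3 * ((j : ℝ) + 2)) := by positivity
          exact le_mul_of_one_le_right hpos hell_pow
      _ = _ := by rw [Kj]; ring
  rw [hell]
  have htend : Tendsto (fun M : ℕ => ‖∑ n ∈ range (M + 1), term (lpow j f) s n‖) atTop
      (𝓝 ‖LSeries (lpow j f) s‖) := by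
    have h1 : Tendsto (fun M : ℕ => ∑ n ∈ range M, term (lpow j f) s n) atTop
        (𝓝 (LSeries (lpow j f) s)) := hsum.LSeriesHasSum.tendsto_sum_nat
    exact ((tendsto_add_atTop_iff_nat 1).2 h1).norm
  refine le_of_tendsto htend ?_
  filter_upwards [eventually_ge_atTop N] with M hM
  exact hpart M hM

end Vale.Agent.P006.SW
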